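import Vale.Agent.P073.H333.PDspec
import Vale.Agent.P073.H234.Cleaned

/-!
# P073, [PRE-2] (`p = 2`): all data and all inequalities, before the fields of `Pre`

The twin of `H333.PD` for the exponent two.  Differences: the conical homeomorphism is controlled
by `H234.NetRes2`; the kept cubes contain the outer layer `olay`; the closeness of `f` to the affine
maps is only known on the edges of the tiles, so the structure `CellsG` is used for an auxiliary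
homeomorphism `g`; `a₁` is an absolute number; the weights of the divided edges have the factor
`2 / a₁`.
-/

namespace Vale.Agent.P073.H340

open MeasureTheory Set Filter Topology Metric Vale.Agent.P073.St Vale.Agent.P073.AB
open Vale.Agent.P073.SQ (ev)
open _root_.P073 (ConHomeo)
open _root_.P073.Net (dyc dyo IsTile SizeFn len)
open Vale.Agent.P073.H73 (MinEdge Bix ctr WLe segP onSeg)
open Vale.Agent.P073.H194 (refine Big wH zo so co MeshOut bInt Oc cellT sInt)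
open Vale.Agent.P073.H471 (wgt)
open Vale.Agent.P073.H83 (CellsG gB grho)
open Vale.Agent.P073.H234 (Touch Tch dn NetRes2)
open Vale.Agent.P073.H333 (lay gap core out base inet Mid PD0)
open scoped ENNReal

/-- the outer layer: tiles of generation `n + k₁ + k₀` which touch a good cell and are in none -/
def olay (v : V) (n k₁ k₀ : ℕ) (J : Finset (Fin 3 → ℤ)) : Set Idx :=
  {r | r.1 = n + k₁ + k₀ ∧ Tch v n (n + k₁ + k₀) J r.2 ∧ ∀ z ∈ J, ¬ dyc v r.1 r.2 ⊆ dyc v n z}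

/-- the kept cubes -/
def kept (v : V) (n k₁ k₀ : ℕ) (J : Finset (Fin 3 → ℤ)) : Set Idx :=
  lay v n k₁ k₀ J ∪ gap v n k₁ J ∪ olay v n k₁ k₀ J

/-- data of the refined partition -/
structure Ref2 (Ω : Set V) (v : V) (n k₁ k₀ : ℕ) (J : Finset (Fin 3 → ℤ)) (B : Set Idx)
    (nf : Idx → ℕ) : Prop where
  fine : H669.Fine Ω v n k₁ k₀ J
  big : Big v (base Ω v n k₁ k₀ J) (kept v n k₁ k₀ J) B nf
  lt : ∀ b ∈ B, ∀ q ∈ base Ω v n k₁ k₀ J \ kept v n k₁ k₀ J,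
    dyc v b.1 b.2 ⊆ dyc v q.1 q.2 → b.1 < nf q

/-- the refined partition -/
def rI2 (Ω : Set V) (v : V) (n k₁ k₀ : ℕ) (J : Finset (Fin 3 → ℤ)) (B : Set Idx) (nf : Idx → ℕ) :
    Set Idx := refine v (base Ω v n k₁ k₀ J) (kept v n k₁ k₀ J) B nf

/-- the square is in a divided cube -/
def InDiv (Ω : Set V) (v : V) (n k₁ k₀ : ℕ) (J : Finset (Fin 3 → ℤ)) (s : Idx × Fin 3) : Prop :=
  ∃ q ∈ base Ω v n k₁ k₀ J \ kept v n k₁ k₀ J, squ v s ⊆ dyc v q.1 q.2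

/-- **[E1]** the classification -/
structure RefOut (Ω : Set V) (v : V) (n k₁ k₀ : ℕ) (J : Finset (Fin 3 → ℤ)) (B : Set Idx)
    (nf : Idx → ℕ) : Prop where
  diff : base Ω v n k₁ k₀ J \ kept v n k₁ k₀ J =
    (out Ω v n k₁ k₀ J \ olay v n k₁ k₀ J) ∪ core v n k₁ J
  sub : kept v n k₁ k₀ J ⊆ base Ω v n k₁ k₀ J
  part : Part Ω v (rI2 Ω v n k₁ k₀ J B nf)
  /-- the partition for `NetInP2` -/
  part_in : Part Ω v (inet Ω v n k₁ k₀ J (rI2 Ω v n k₁ k₀ J B nf))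
  tch_in : ∀ u, Tch v n (n + k₁ + k₀) J u →
    ((n + k₁ + k₀, u) : Idx) ∈ inet Ω v n k₁ k₀ J (rI2 Ω v n k₁ k₀ J B nf)
  /-- a divided cube outside of the boxes does not meet the good cells -/
  off : ∀ q ∈ out Ω v n k₁ k₀ J \ olay v n k₁ k₀ J, ∀ z ∈ J,
    Disjoint (dyc v q.1 q.2) (dyc v n z)
  /-- a cube of the partition which is not kept is in a divided cube -/
  cube : ∀ r ∈ rI2 Ω v n k₁ k₀ J B nf, r ∉ kept v n k₁ k₀ J →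
    ∃ q ∈ base Ω v n k₁ k₀ J \ kept v n k₁ k₀ J, dyc v r.1 r.2 ⊆ dyc v q.1 q.2
  /-- a divided square does not meet the open tiles which touch the cells -/
  tch_off : ∀ q ∈ out Ω v n k₁ k₀ J \ olay v n k₁ k₀ J, ∀ u, Tch v n (n + k₁ + k₀) J u →
    Disjoint (dyc v q.1 q.2) (dyo v (n + k₁ + k₀) u)
  minSq : ∀ s, MinSq v (rI2 Ω v n k₁ k₀ J B nf) s → InDiv Ω v n k₁ k₀ J s ∨
    (s.1.1 = n + k₁ + k₀ ∧ Tch v n (n + k₁ + k₀) J s.1.2 ∧ Tch v n (n + k₁ + k₀) J (dn s) ∧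
      ∀ z ∈ J, Disjoint (squ v s) (interior (boxB v n k₁ z))) ∨
    (s.1.1 = n + k₁ ∧ ∃ z ∈ J, squ v s ⊆ boxB v n k₁ z ∧
      Disjoint (squ v s) (interior (boxR v n k₁ z)))
  minEdge : ∀ e, MinEdge v (rI2 Ω v n k₁ k₀ J B nf) e →
    (∃ s, MinSq v (rI2 Ω v n k₁ k₀ J B nf) s ∧ edge v e ⊆ squ v s ∧ InDiv Ω v n k₁ k₀ J s) ∨
    (e.1.1 = n + k₁ + k₀ ∧ (∃ u, Tch v n (n + k₁ + k₀) J u ∧ EdgeOf e (n + k₁ + k₀, u)) ∧
      ∀ z ∈ J, Disjoint (edge v e) (interior (boxB v n k₁ z))) ∨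
    (e.1.1 = n + k₁ ∧ ∃ z ∈ J, edge v e ⊆ boxB v n k₁ z ∧
      Disjoint (edge v e) (interior (boxR v n k₁ z)))
  /-- the edges of `I` and the partition for `NetInP2` -/
  edge_inet : ∀ e, (∃ r ∈ rI2 Ω v n k₁ k₀ J B nf, EdgeOf e r) →
    ((∃ r ∈ inet Ω v n k₁ k₀ J (rI2 Ω v n k₁ k₀ J B nf), EdgeOf e r) ∧
      ∀ z ∈ J, Disjoint (edge v e) (interior (boxB v n k₁ z))) ∨
    (∃ z ∈ J, edge v e ⊆ boxR v n k₁ z) ∨
    (e.1.1 = n + k₁ ∧ ∃ z ∈ J, edge v e ⊆ boxB v n k₁ z ∧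
      Disjoint (edge v e) (interior (boxR v n k₁ z)))

/-- **[E1]** -/
def SpecRef2 : Prop :=
  ∀ (Ω : Set V) (v : V) (n k₁ k₀ : ℕ) (J : Finset (Fin 3 → ℤ)) (B : Set Idx) (nf : Idx → ℕ),
    IsOpen Ω → Ref2 Ω v n k₁ k₀ J B nf → RefOut Ω v n k₁ k₀ J B nf

section

variable {Ω Λ : Set V} {g : V → V}

/-- the kept cubes -/
def Pk (D : PD0 Ω Λ g) : Set Idx := kept D.v D.n D.k₁ D.k₀ D.J

/-- `A z` in the boxes `boxR z`, `f` outside -/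
noncomputable def fs2 (D : PD0 Ω Λ g) (f : V → V) : V → V := H194.fs D.v D.n D.k₁ D.J D.A f

/-- weighted density -/
noncomputable def Hw2 (D : PD0 Ω Λ g) (f : V → V) (p : ℝ) : V → ℝ≥0∞ :=
  wH p (zo D.ρ D.Bx) (so D.ρ D.Bx) (co D.ρ D.Bx D.c) (fs2 D f) (D.Gs p)

/-- the weight of an edge in a divided cube, without the factor -/
noncomputable def wst2 (D : PD0 Ω Λ g) (f : V → V) (e : Idx × Fin 3) : ℝ :=
  (2178 * ⨅ x ∈ edge D.v e, D.wg (fs2 D f x)).toReal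

/-- the refined partition -/
def I2 (D : PD0 Ω Λ g) (Bg : Set Idx) (nf : Idx → ℕ) : Set Idx :=
  rI2 Ω D.v D.n D.k₁ D.k₀ D.J Bg nf

/-- the partition for `NetInP2` -/
def In2 (D : PD0 Ω Λ g) (Bg : Set Idx) (nf : Idx → ℕ) : Set Idx :=
  inet Ω D.v D.n D.k₁ D.k₀ D.J (I2 D Bg nf)

/-- bound for the weights of the edges of the kept cubes -/
noncomputable def W₄ (D : PD0 Ω Λ g) : ℝ := 2 / D.a₁ * (2178 * (1 + 4 * (2 / D.a₁)))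

/-- constant in the bound of the kept edges -/
noncomputable def Kk2 (D : PD0 Ω Λ g) (p : ℝ) : ℝ≥0∞ :=
  ENNReal.ofReal (16 * W₄ D) ^ p * (2 ^ (p - 1) *
    (ENNReal.ofReal (D.M ^ p + 1) + ENNReal.ofReal (D.M + D.C + 1) ^ p))

/-- the factor of the weights of the divided edges -/
noncomputable def cK (a₁ : ℝ) : ℝ≥0∞ := 34848 * ENNReal.ofReal (2 / a₁)

end

/-- all data -/
structure PE (p ε δ : ℝ) (Φ : ℕ → Finset (Fin 3 → ℤ) → ((Fin 3 → ℤ) → V → V) → ℝ)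
    (Ω Λ : Set V) (g f : V → V) (F : V → Mat) extends PD0 Ω Λ g where
  bΩ : St.IsBoundedDomain Ω
  bΛ : St.IsBoundedDomain Λ
  hf : St.IsHomeo Ω Λ f
  hF : St.IsSobolev p Ω f F
  hp : 2 ≤ p
  hp3 : p < 3
  hε : 0 < ε
  hδ : 0 < δ
  -- numbers
  M0 : 0 < M
  C0 : 0 < C
  /-- constant of `NetInP2` -/
  C₀ : ℝ
  C00 : 0 < C₀
  CC₀ : 2 * C₀ + M + 1 ≤ C
  a0 : 0 < a₁
  a1 : a₁ ≤ 1 / 2
  β0 : 0 < β
  m2 : 2 ≤ m₁
  nm : n ≤ m₁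
  mmt : m₁ + 2 ≤ mt
  mtm : mt ≤ m'
  /-- generation near the cells -/
  nr : ℕ
  mnr : m' ≤ nr
  η1 : C / 2 ^ (n + k₁) ≤ a₁ / 2 ^ m₁ / 2
  η2 : 2 * (C / 2 ^ (n + k₁)) + M * (1 / 2 ^ (n + k₁)) ≤ δ * (a₁ / 2 ^ m₁ / 2)
  η4 : 1 / 2 ^ m₁ ≤ ε
  r1 : M * (8 / 2 ^ nr) ≤ 3 / 2 ^ m₁
  r2 : M * (4 / 2 ^ nr) ≤ 1 / 8 / 2 ^ m'
  r3 : M * (2 / 2 ^ nr) ≤ δ * (1 / 8 / 2 ^ m')
  r4 : M * (16 / 2 ^ nr) < 2 / 2 ^ mt
  r5 : (16 : ℝ) / 2 ^ nr < 4 / 2 ^ (n + k₁)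
  r6 : (4 : ℝ) / 2 ^ nr ≤ 1 / 2 / 2 ^ n
  -- good cells
  aff : ∀ z x y, A z y - A z x = L z (y - x)
  fine : H669.Fine Ω v n k₁ k₀ J
  /-- dyadic coefficients -/
  N : ℕ
  dyL : ∀ z ∈ J, ∀ i j, ∃ a : ℤ, L z (ev j) i = a / 2 ^ N
  dyA : ∀ z ∈ J, ∀ i, ∃ a : ℤ, A z v i = a / 2 ^ N
  /-- energy outside of the good cells -/
  εc : ℝ≥0∞
  es1 : ∑ z ∈ J, ∫⁻ y in dyc v n z, ‖cl (F y) - L z‖ₑ ^ p ≤ εc
  es2 : ∫⁻ y in Ω \ ⋃ z ∈ J, dyc v n z, ‖cl (F y)‖ₑ ^ p ≤ εc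
  /-- volume of the cells which is not covered -/
  εf : ℝ≥0∞
  fill : ∑ z ∈ J, volume (dyc v n z \ ⋃ b ∈ {b | b ∈ toPD0.Bx ∧ b.1 = z}, b.cell A) ≤ εf
  -- the density
  Gm : Measurable G
  Gfin : ∫⁻ x, G x ≠ ⊤
  rat : RatGood v Ω f F
  efin : ∀ e : Idx × Fin 3, edge v e ⊆ Ω →
    eInt v e (fun x => ENNReal.ofReal ‖cl (F x) (ev e.2)‖) ≠ ⊤
  rep : ∀ A A' : V → ℝ≥0∞, (∀ x, (Ω.indicator fun x => ‖cl (F x)‖ₑ ^ p) x = G x → A x = A' x) →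
    (∀ e, eInt v e A = eInt v e A') ∧ ∀ s, H194.sInt v s A = H194.sInt v s A'
  /-- the edges of the tiles which touch the cells: energy -/
  own : ∀ u, Tch v n (n + k₁ + k₀) J u → ∀ e : Idx × Fin 3, EdgeOf e (n + k₁ + k₀, u) →
    eInt v e G ≤ ENNReal.ofReal ((M ^ p + 1) / 2 ^ (n + k₁ + k₀))
  /-- the edges of the tiles which touch the cells: `f` is close to the affine map -/
  fown : ∀ z ∈ J, ∀ u, Touch v n (n + k₁ + k₀) z u → ∀ e : Idx × Fin 3,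
    EdgeOf e (n + k₁ + k₀, u) → ∀ x ∈ edge v e, ‖f x - A z x‖ ≤ 1 / 2 ^ (n + k₁ + k₀)
  -- centres
  mid : Mid toPD0.ρ c
  far : ∀ m zz, IsTile toPD0.ρ 0 m zz → ∀ z ∈ J, ∀ x ∈ dyc v n z, x ∉ boxR v n k₁ z →
    a₁ / 2 ^ m₁ ≤ ‖c m zz - A z x‖
  -- mesh
  Bg : Set Idx
  nf : Idx → ℕ
  τ : Idx → ℝ
  τ0 : ∀ q, 0 < τ q
  e : Idx → ℝ≥0∞
  mesh : MeshOut p δ Ω Λ f G v n k₁ J A L toPD0.Ib (Pk toPD0) toPD0.Bx (zo toPD0.ρ toPD0.Bx)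
    (so toPD0.ρ toPD0.Bx) (co toPD0.ρ toPD0.Bx c) e τ Bg nf nr
  εe : ℝ≥0∞
  esum : ∑' q : toPD0.Ib, e q ≤ εe
  εI : ℝ≥0∞
  int : ∫⁻ x in ⋃ q ∈ toPD0.Ib \ Pk toPD0, dyc v q.1 q.2, Hw2 toPD0 f p x ≤ εI
  /-- the outer faces of the outer layer -/
  εS : ℝ≥0∞
  intS : ∑' i : {i : Idx // i ∈ olay v n k₁ k₀ J},
    ∑' s : {s : Idx × Fin 3 // MinSq v toPD0.Ib s ∧ squ v s ⊆ dyc v i.1.1 i.1.2 ∧
      ∃ r ∈ toPD0.Ib \ Pk toPD0, squ v s ⊆ dyc v r.1 r.2},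
      ENNReal.ofReal (1 / 2 ^ i.1.1) * sInt v s.1 (Hw2 toPD0 f p) ≤ εS
  /-- oscillation of `f` on the minimal squares outside of the cells -/
  ω : ℝ
  τs : ℝ
  ω0 : 0 ≤ ω
  ωs : 2 * ω + τs ≤ C₀ / 2 ^ (n + k₁ + k₀)
  oscD : ∀ s, MinSq v (I2 toPD0 Bg nf) s → ∀ q ∈ out Ω v n k₁ k₀ J \ olay v n k₁ k₀ J,
    squ v s ⊆ dyc v q.1 q.2 → ∀ x ∈ squ v s, ∀ y ∈ squ v s, ‖f x - f y‖ ≤ ω
  -- the homeomorphism
  h : ConHomeo Ω Λ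
  σ : V → ℝ
  δe : Idx × Fin 3 → ℝ
  στ : ∀ q ∈ toPD0.Ib \ Pk toPD0, ∀ x ∈ dyc v q.1 q.2, σ x ≤ τ q
  δ0 : ∀ e, 0 < δe e
  δ1 : ∀ e, δe e ≤ 1 / 2 ^ e.1.1
  δ2 : ∀ e, 2 / a₁ * wst2 toPD0 f e * (2 * δe e) ≤ β / 2 ^ e.1.1
  net : NetRes2 v (In2 toPD0 Bg nf) n k₁ k₀ J C₀ ε τs A f F Ω σ δe h.toFun
  -- zero order
  K : Set V
  Ksub : K ⊆ Ω
  Kc : IsCompact K
  Kvol : volume (Ω \ K) ≤ ENNReal.ofReal ε
  osc : ∀ x ∈ K, ∀ y, ‖y - x‖ ≤ 1 / 2 ^ n → ‖f y - f x‖ ≤ ε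
  -- budgets
  b1 : 3 * εc ≤ ENNReal.ofReal ε
  b2 : 3 * (εc + 2 ^ (p - 1) * (εc + ENNReal.ofReal M ^ p * εf)) ≤ ENNReal.ofReal ε
  /-- divided cubes, kept cubes on divided cubes, kept cubes on kept cubes -/
  b3 : 2 ^ (p - 1) * (cK a₁ ^ p * (36 * εI + εe) + 24 * ENNReal.ofReal β ^ p * volume Ω) +
    (2 ^ (p - 1) * (cK a₁ ^ p * (36 * (εS + ENNReal.ofReal (1 + 4 * (2 / a₁)) ^ p *
          (ENNReal.ofReal M ^ p * (6 * ENNReal.ofReal (12 / 2 ^ k₁) * volume Ω))) + εe) +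
        24 * ENNReal.ofReal β ^ p * volume Ω) +
      24 * Kk2 toPD0 p * (ENNReal.ofReal (24 / 2 ^ k₁) * volume Ω)) ≤ ENNReal.ofReal ε
  b4 : Φ N J A * ((gB H mt).card * (6 * (9 / θ * (2 / 2 ^ n) ^ 2 * (1 / 2 ^ m')))) ≤ ε

namespace PE

variable {p ε δ : ℝ} {Φ : ℕ → Finset (Fin 3 → ℤ) → ((Fin 3 → ℤ) → V → V) → ℝ}
  {Ω Λ : Set V} {g f : V → V} {F : V → Mat} (D : PE p ε δ Φ Ω Λ g f F)

/-- the refined partition -/
def I : Set Idx := I2 D.toPD0 D.Bg D.nf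

/-- the kept cubes -/
def Pk : Set Idx := H340.Pk D.toPD0

/-- `A z` in the boxes, `f` outside -/
noncomputable def fs : V → V := fs2 D.toPD0 f

/-- weighted density -/
noncomputable def Hw : V → ℝ≥0∞ := Hw2 D.toPD0 f p

/-- edges in a minimal square in a divided cube -/
def Div (e : Idx × Fin 3) : Prop := ∃ s, MinSq D.v D.I s ∧ edge D.v e ⊆ squ D.v s ∧
  InDiv Ω D.v D.n D.k₁ D.k₀ D.J s

open Classical in
/-- the weight of an edge -/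
noncomputable def We (e : Idx × Fin 3) : ℝ :=
  if D.Div e then 2 / D.a₁ * wst2 D.toPD0 f e else 2 / D.a₁

/-- weighted length of an edge -/
noncomputable def ell (e : Idx × Fin 3) : ℝ≥0∞ :=
  ENNReal.ofReal (D.We e) * len (onSeg D.h.toFun (segP D.v e)) (Icc 0 1)

/-- density of the divided squares -/
noncomputable def gD (x : V) : ℝ≥0∞ :=
  cK D.a₁ * (D.wg (D.fs x) * (D.Gs p x) ^ (1 / p)) + ENNReal.ofReal D.β

/-- density of the kept edges -/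
noncomputable def gk (x : V) : ℝ≥0∞ :=
  ENNReal.ofReal (16 * W₄ D.toPD0) * (D.G x ^ (1 / p) + ENNReal.ofReal (D.M + D.C + 1))

/-- near the image of the layer of a good cell -/
def NL (y : V) : Prop := ∃ z ∈ D.J, ∃ x ∈ dyc D.v D.n z, x ∉ interior (boxR D.v D.n D.k₁ z) ∧
  ‖y - D.A z x‖ ≤ D.C / 2 ^ (D.n + D.k₁)

/-- **[E2]** on the minimal squares `h` is as `fs`, or near the images of the layers -/
def KeySq : Prop := ∀ s, MinSq D.v D.I s →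
  (∃ q ∈ D.Ib \ D.Pk, squ D.v s ⊆ dyc D.v q.1 q.2 ∧
    ∀ x ∈ squ D.v s, ‖D.h.toFun x - D.fs x‖ ≤ D.τ q) ∨
  ((∀ x ∈ squ D.v s, D.NL (D.h.toFun x)) ∧ ∀ x ∈ squ D.v s, ∀ y ∈ squ D.v s,
    ‖D.h.toFun x - D.h.toFun y‖ ≤ 2 * (D.C / 2 ^ (D.n + D.k₁)) + D.M * (1 / 2 ^ (D.n + D.k₁)))

/-- **[E2]** on the minimal edges which are not divided `h` is near the images of the layers -/
def KeyEd : Prop := ∀ e, MinEdge D.v D.I e → ¬ D.Div e →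
  ∀ x ∈ edge D.v e, D.NL (D.h.toFun x)

/-- **[E2]** lengths -/
def KeyLen : Prop := ∀ e : Idx × Fin 3, (∃ r ∈ D.I, EdgeOf e r) →
  len (onSeg D.h.toFun (segP D.v e)) (Icc 0 1) ≤
    16 * eInt D.v e (fun x => (Ω.indicator (fun x => ‖cl (F x)‖ₑ) x) +
      ENNReal.ofReal (D.M + D.C + 1))

end PE

end Vale.Agent.P073.H340
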