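import Vale.Agent.P073.H340.PE
import Vale.Agent.P073.H333.PD3b

/-!
# P073, [PRE-2] (`p = 2`), [E2]: the homeomorphism on the minimal squares and edges
-/

namespace Vale.Agent.P073.H340

open MeasureTheory Set Filter Topology Metric Vale.Agent.P073.St Vale.Agent.P073.AB
open Vale.Agent.P073.SQ (ev)
open _root_.P073 (ConHomeo)
open _root_.P073.Net (dyc dyo IsTile SizeFn len)
open Vale.Agent.P073.H73 (MinEdge Bix ctr WLe segP onSeg)
open Vale.Agent.P073.H234 (Touch Tch dn NetRes2)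
open Vale.Agent.P073.H333 (lay gap core out base inet Mid PD0 eInt_add_cst eInt_cst eInt_mono_on
  clm_ev_le eInt_congr_edge)
open scoped ENNReal

/-- the nearest point of a cell which is touched by the tile -/
theorem near_pt {v : V} {n N : ℕ} {z u : Fin 3 → ℤ} (hT : Touch v n N z u) {x : V}
    (hx : x ∈ dyc v N u) : ∃ y ∈ dyc v n z, ‖x - y‖ ≤ 1 / 2 ^ N ∧ (x ∈ dyc v n z → y = x) ∧
      (x ∉ dyc v n z → y ∉ dyo v n z) := by
  obtain ⟨w, hw, hwz⟩ := hT
  have hlh : ∀ i, v i + (z i : ℝ) / 2 ^ n ≤ v i + ((z i : ℝ) + 1) / 2 ^ n := fun i => by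
    have : (z i : ℝ) / 2 ^ n ≤ ((z i : ℝ) + 1) / 2 ^ n := by gcongr; linarith
    linarith
  refine ⟨fun i => max (v i + z i / 2 ^ n) (min (v i + (z i + 1) / 2 ^ n) (x i)), fun i =>
    ⟨le_max_left _ _, max_le (hlh i) (min_le_left _ _)⟩, ?_, ?_, ?_⟩
  · rw [pi_norm_le_iff_of_nonneg (by positivity)]
    intro i
    have h1 := hw i
    have h2 := hwz i
    have h3 := hx i
    have e : ((u i : ℝ) + 1) / 2 ^ N = u i / 2 ^ N + 1 / 2 ^ N := by ring
    rw [e] at h1 h3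
    rw [Pi.sub_apply, Real.norm_eq_abs, abs_le]
    have hp : (0:ℝ) < 1 / 2 ^ N := by positivity
    rcases le_total (x i) (v i + (z i + 1) / 2 ^ n) with h4 | h4
    · rw [min_eq_right h4]
      rcases le_total (v i + z i / 2 ^ n) (x i) with h5 | h5
      · rw [max_eq_right h5]
        constructor <;> linarith
      · rw [max_eq_left h5]
        constructor <;> linarith [h1.1, h1.2, h2.1, h2.2, h3.1, h3.2]
    · rw [min_eq_left h4, max_eq_right (hlh i)]
      constructor <;> linarith [h1.1, h1.2, h2.1, h2.2, h3.1, h3.2]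
  · intro hxz
    funext i
    have h1 := hxz i
    show max _ (min _ (x i)) = x i
    rw [min_eq_right h1.2, max_eq_right h1.1]
  · intro hxz hyz
    apply hxz
    intro i
    have h1 := hyz i
    simp only at h1
    rcases le_total (x i) (v i + (z i + 1) / 2 ^ n) with h4 | h4
    · rw [min_eq_right h4] at h1
      rcases le_total (v i + z i / 2 ^ n) (x i) with h5 | h5
      · exact ⟨h5, h4⟩
      · rw [max_eq_left h5] at h1
        exact absurd h1.1 (lt_irrefl _)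
    · rw [min_eq_left h4, max_eq_right (hlh i)] at h1
      exact absurd h1.2 (lt_irrefl _)

theorem isPreconnected_squ (v : V) (s : Idx × Fin 3) : IsPreconnected (squ v s) := by
  refine Convex.isPreconnected ?_
  intro x hx y hy a b ha hb hab
  refine ⟨?_, fun k hk => ?_⟩
  · show a * x s.2 + b * y s.2 = _
    rw [hx.1, hy.1, ← add_mul, hab, one_mul]
  · have h1 := hx.2 k hk
    have h2 := hy.2 k hk
    exact (convex_Icc _ _) h1 h2 ha hb hab

theorem squ_sub_up (v : V) {s : Idx × Fin 3} : squ v s ⊆ dyc v s.1.1 s.1.2 := by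
  intro x hx k
  have hp : (0:ℝ) < 1 / 2 ^ s.1.1 := by positivity
  have e : ((s.1.2 k : ℝ) + 1) / 2 ^ s.1.1 = s.1.2 k / 2 ^ s.1.1 + 1 / 2 ^ s.1.1 := by ring
  by_cases hk : k = s.2
  · subst hk
    rw [hx.1]
    constructor
    · exact le_rfl
    · rw [e]; linarith
  · exact ⟨(hx.2 k hk).1, (hx.2 k hk).2⟩

namespace PE

variable {p ε δ : ℝ} {Φ : ℕ → Finset (Fin 3 → ℤ) → ((Fin 3 → ℤ) → V → V) → ℝ}
  {Ω Λ : Set V} {g f : V → V} {F : V → Mat} (D : PE p ε δ Φ Ω Λ g f F)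

theorem ref2 : Ref2 Ω D.v D.n D.k₁ D.k₀ D.J D.Bg D.nf :=
  ⟨D.fine, D.mesh.big, D.mesh.lt⟩

theorem I_eq : D.I = rI2 Ω D.v D.n D.k₁ D.k₀ D.J D.Bg D.nf := rfl

theorem pow_N0 : (1:ℝ) / 2 ^ (D.n + D.k₁ + D.k₀) ≤ 1 / 2 ^ (D.n + D.k₁) := by
  apply one_div_le_one_div_of_le (by positivity)
  exact pow_le_pow_right₀ one_le_two (Nat.le_add_right _ _)

theorem dist_A {z : Fin 3 → ℤ} (hz : z ∈ D.J) (x y : V) :
    ‖D.A z x - D.A z y‖ ≤ D.M * ‖x - y‖ := D.H.dist_le hz x y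

theorem intR_sub_intB (z : Fin 3 → ℤ) :
    interior (boxR D.v D.n D.k₁ z) ⊆ interior (boxB D.v D.n D.k₁ z) :=
  interior_mono (AB.S308.boxR_sub_boxB z)

/-- near the affine image of a point of a touching tile -/
theorem nl_of_close {z u : Fin 3 → ℤ} (hz : z ∈ D.J)
    (hT : Touch D.v D.n (D.n + D.k₁ + D.k₀) z u) {x : V} (hx : x ∈ dyc D.v (D.n + D.k₁ + D.k₀) u)
    (hxB : x ∉ interior (boxB D.v D.n D.k₁ z)) {y : V}
    (hy : ‖y - D.A z x‖ ≤ D.C₀ / 2 ^ (D.n + D.k₁ + D.k₀)) : D.NL y := by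
  obtain ⟨w, hw, hxw, h1, h2⟩ := near_pt hT hx
  refine ⟨z, hz, w, hw, ?_, ?_⟩
  · by_cases hxz : x ∈ dyc D.v D.n z
    · rw [h1 hxz]
      exact fun h => hxB (D.intR_sub_intB z h)
    · exact fun h => h2 hxz (H333.boxR_sub_dyo _ _ _ _ (interior_subset h))
  · have h3 := D.dist_A hz x w
    have hM := D.M0
    have h4 := mul_le_mul_of_nonneg_left hxw hM.le
    have h5 := D.CC₀
    have hC := D.C00
    have h6 : ‖y - D.A z w‖ ≤ ‖y - D.A z x‖ + ‖D.A z x - D.A z w‖ := by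
      calc ‖y - D.A z w‖ = ‖(y - D.A z x) + (D.A z x - D.A z w)‖ := by congr 1; abel
        _ ≤ _ := norm_add_le _ _
    have h7 : D.C₀ / 2 ^ (D.n + D.k₁ + D.k₀) = D.C₀ * (1 / 2 ^ (D.n + D.k₁ + D.k₀)) := by ring
    have h8 : D.C / 2 ^ (D.n + D.k₁) = D.C * (1 / 2 ^ (D.n + D.k₁)) := by ring
    have hp : (0:ℝ) < 1 / 2 ^ (D.n + D.k₁ + D.k₀) := by positivity
    rw [h7] at hy
    rw [h8]
    calc ‖y - D.A z w‖ ≤ (D.C₀ + D.M) * (1 / 2 ^ (D.n + D.k₁ + D.k₀)) := by linarith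
      _ ≤ D.C * (1 / 2 ^ (D.n + D.k₁)) := by
          apply mul_le_mul _ D.pow_N0 hp.le D.C0.le
          linarith

theorem C₀_le : D.C₀ / 2 ^ (D.n + D.k₁) ≤ D.C / 2 ^ (D.n + D.k₁) := by
  have h5 := D.CC₀
  have hC := D.C00
  have hM := D.M0
  gcongr
  linarith

/-- **[E2]** -/
theorem keySq (R : RefOut Ω D.v D.n D.k₁ D.k₀ D.J D.Bg D.nf) : D.KeySq := by
  intro s hs
  have hp0 : (0:ℝ) < 1 / 2 ^ (D.n + D.k₁ + D.k₀) := by positivity
  have hp1 := D.pow_N0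
  have h7 : D.C₀ / 2 ^ (D.n + D.k₁ + D.k₀) = D.C₀ * (1 / 2 ^ (D.n + D.k₁ + D.k₀)) := by ring
  have h7' : D.C₀ / 2 ^ (D.n + D.k₁) = D.C₀ * (1 / 2 ^ (D.n + D.k₁)) := by ring
  have h8 : D.C / 2 ^ (D.n + D.k₁) = D.C * (1 / 2 ^ (D.n + D.k₁)) := by ring
  have hC := D.C00
  have hC' := D.C0
  have hM := D.M0
  have hCC := D.CC₀
  have hC1 : D.C₀ * (1 / 2 ^ (D.n + D.k₁ + D.k₀)) ≤ D.C₀ * (1 / 2 ^ (D.n + D.k₁)) :=
    mul_le_mul_of_nonneg_left hp1 hC.le
  have hC2 : 2 * D.C₀ * (1 / 2 ^ (D.n + D.k₁)) ≤ D.C * (1 / 2 ^ (D.n + D.k₁)) :=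
    mul_le_mul_of_nonneg_right (by linarith) (by positivity)
  have hC3 : 0 < D.C₀ * (1 / 2 ^ (D.n + D.k₁)) := by positivity
  rcases R.minSq s hs with ⟨q, hq, hsq⟩ | ⟨h1, h2, h3, h4⟩ | ⟨h1, z, hz, h2, h3⟩
  · have hq' := hq
    rw [R.diff] at hq'
    rcases hq' with hq' | hq'
    · -- outside
      have hoff : ∀ z ∈ D.J, Disjoint (squ D.v s) (dyc D.v D.n z) := fun z hz =>
        (R.off q hq' z hz).mono_left hsq
      have hfs : ∀ x ∈ squ D.v s, D.fs x = f x := fun x hx => H194.fs_out fun z hz hxz =>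
        Set.disjoint_left.1 (hoff z hz) hx
          (P86.dyo_sub_dyc (H333.boxR_sub_dyo _ _ _ _ hxz))
      have hsΩ : squ D.v s ⊆ Ω := hsq.trans (D.fine.part_base.sub q hq.1)
      rcases D.net.off (squ D.v s) hsΩ (isPreconnected_squ D.v s)
        (fun z hz => (hoff z hz).mono_right P86.dyo_sub_dyc)
        (fun u hu => (R.tch_off q hq' u hu).mono_left hsq) with h | h
      · refine Or.inl ⟨q, hq, hsq, fun x hx => ?_⟩
        rw [hfs x hx]
        exact (h x hx).trans (D.στ q hq x (hsq hx))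
      · right
        obtain ⟨h5, h6⟩ := h D.ω (D.oscD s hs q hq' hsq)
        have hω := D.ωs
        refine ⟨fun x hx => ?_, fun x hx y hy => (h5 x hx y hy).trans ?_⟩
        · obtain ⟨z, hz, y, hy, hyB, hxy⟩ := h6 x hx
          refine ⟨z, hz, y, hy, fun h => hyB (D.intR_sub_intB z h), hxy.trans ?_⟩
          rw [h8]
          rw [h7] at hω ⊢
          linarith
        · rw [h8]
          rw [h7] at hω
          have : 0 ≤ D.M * (1 / 2 ^ (D.n + D.k₁)) := by positivity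
          linarith
    · -- in a box
      obtain ⟨-, z, hz, hqz⟩ := hq'
      refine Or.inl ⟨q, hq, hsq, fun x hx => ?_⟩
      have hxR := hqz (hsq hx)
      have e1 : D.fs x = D.A z x := H194.fs_in hz hxR
      rw [e1, D.net.box z hz x hxR, sub_self, norm_zero]
      exact (D.τ0 q).le
  · right
    obtain ⟨z, hz, ht1, -, hcl⟩ := D.net.osq s h1 h2 h3
    have hsub : squ D.v s ⊆ dyc D.v (D.n + D.k₁ + D.k₀) s.1.2 := by
      rw [← h1]; exact squ_sub_up D.v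
    have hxB : ∀ x ∈ squ D.v s, x ∉ interior (boxB D.v D.n D.k₁ z) := fun x hx =>
      Set.disjoint_left.1 (h4 z hz) hx
    refine ⟨fun x hx => D.nl_of_close hz ht1 (hsub hx) (hxB x hx) (hcl x hx (hxB x hx)),
      fun x hx y hy => ?_⟩
    have hx1 := hcl x hx (hxB x hx)
    have hy1 := hcl y hy (hxB y hy)
    have hxy := H333.squ_diam hx hy
    rw [h1] at hxy
    have hA := D.dist_A hz x y
    have hA2 : D.M * ‖x - y‖ ≤ D.M * (1 / 2 ^ (D.n + D.k₁)) :=
      mul_le_mul_of_nonneg_left (hxy.trans hp1) hM.le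
    have h9 : ‖D.h.toFun x - D.h.toFun y‖ ≤ ‖D.h.toFun x - D.A z x‖ + ‖D.A z x - D.A z y‖ +
        ‖D.h.toFun y - D.A z y‖ := by
      calc ‖D.h.toFun x - D.h.toFun y‖ = ‖(D.h.toFun x - D.A z x) + (D.A z x - D.A z y) -
            (D.h.toFun y - D.A z y)‖ := by congr 1; abel
        _ ≤ ‖(D.h.toFun x - D.A z x) + (D.A z x - D.A z y)‖ + ‖D.h.toFun y - D.A z y‖ :=
            norm_sub_le _ _
        _ ≤ _ := by gcongr; exact norm_add_le _ _
    rw [h7] at hx1 hy1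
    rw [h8]
    linarith
  · right
    have hxB : ∀ x ∈ squ D.v s, x ∉ interior (boxR D.v D.n D.k₁ z) := fun x hx =>
      Set.disjoint_left.1 h3 hx
    have hcl : ∀ x ∈ squ D.v s, ‖D.h.toFun x - D.A z x‖ ≤ D.C₀ / 2 ^ (D.n + D.k₁) := fun x hx =>
      D.net.inn z hz x (h2 hx)
    refine ⟨fun x hx => ⟨z, hz, x, AB.S308.boxB_sub_dyc z (h2 hx), hxB x hx,
      (hcl x hx).trans D.C₀_le⟩, fun x hx y hy => ?_⟩
    have hx1 := hcl x hx
    have hy1 := hcl y hy
    have hxy := H333.squ_diam hx hy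
    rw [h1] at hxy
    have hA := D.dist_A hz x y
    have hA2 : D.M * ‖x - y‖ ≤ D.M * (1 / 2 ^ (D.n + D.k₁)) :=
      mul_le_mul_of_nonneg_left hxy hM.le
    have h9 : ‖D.h.toFun x - D.h.toFun y‖ ≤ ‖D.h.toFun x - D.A z x‖ + ‖D.A z x - D.A z y‖ +
        ‖D.h.toFun y - D.A z y‖ := by
      calc ‖D.h.toFun x - D.h.toFun y‖ = ‖(D.h.toFun x - D.A z x) + (D.A z x - D.A z y) -
            (D.h.toFun y - D.A z y)‖ := by congr 1; abel
        _ ≤ ‖(D.h.toFun x - D.A z x) + (D.A z x - D.A z y)‖ + ‖D.h.toFun y - D.A z y‖ :=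
            norm_sub_le _ _
        _ ≤ _ := by gcongr; exact norm_add_le _ _
    rw [h7'] at hx1 hy1
    rw [h8]
    linarith

/-- **[E2]** -/
theorem keyEd (R : RefOut Ω D.v D.n D.k₁ D.k₀ D.J D.Bg D.nf) : D.KeyEd := by
  intro e he hd x hx
  rcases R.minEdge e he with h | ⟨-, ⟨u, ⟨z, hz, hT⟩, heu⟩, h3⟩ | ⟨-, z, hz, h2, h3⟩
  · exact absurd h hd
  · have h4 := (D.net.own z hz u hT e heu (h3 z hz)).1 x hx
    exact D.nl_of_close hz hT (Gr.edge_subset_dyc heu hx)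
      (Set.disjoint_left.1 (h3 z hz) hx) h4
  · exact ⟨z, hz, x, AB.S308.boxB_sub_dyc z (h2 hx), Set.disjoint_left.1 h3 hx,
      (D.net.inn z hz x (h2 hx)).trans D.C₀_le⟩

theorem enorm_L_le {z : Fin 3 → ℤ} (hz : z ∈ D.J) : ‖D.L z‖ₑ ≤ ENNReal.ofReal D.M := by
  rw [← ofReal_norm]
  exact ENNReal.ofReal_le_ofReal
    ((D.L z).opNorm_le_bound D.M0.le (D.H.above z hz))

/-- length: an edge of the partition for `NetInP2` -/
theorem len_net {e : Idx × Fin 3} (hsub : edge D.v e ⊆ Ω)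
    (h1 : ∃ r ∈ In2 D.toPD0 D.Bg D.nf, EdgeOf e r)
    (h2 : ∀ z ∈ D.J, Disjoint (edge D.v e) (interior (boxB D.v D.n D.k₁ z))) :
    len (onSeg D.h.toFun (segP D.v e)) (Icc 0 1) ≤
      16 * eInt D.v e (Ω.indicator fun x => ‖cl (F x)‖ₑ) + 2 * ENNReal.ofReal (D.δe e) := by
  refine (H687.len_onSeg_le D.h hsub).trans ?_
  have h3 := D.net.len e h1 h2
  calc 2 * eInt D.v e (fun x => ENNReal.ofReal ‖lineDeriv ℝ D.h.toFun x (ev e.2)‖)
      ≤ 2 * (8 * eInt D.v e (fun x => ENNReal.ofReal ‖cl (F x) (ev e.2)‖) +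
          ENNReal.ofReal (D.δe e)) := by gcongr
    _ = 16 * eInt D.v e (fun x => ENNReal.ofReal ‖cl (F x) (ev e.2)‖) +
          2 * ENNReal.ofReal (D.δe e) := by ring
    _ ≤ _ := by
        gcongr
        refine eInt_mono_on fun x hx => ?_
        rw [indicator_of_mem (hsub hx)]
        exact clm_ev_le _ _

/-- length: an edge in a box -/
theorem len_box {e : Idx × Fin 3} (hsub : edge D.v e ⊆ Ω) {z : Fin 3 → ℤ} (hz : z ∈ D.J)
    (h1 : edge D.v e ⊆ boxR D.v D.n D.k₁ z) :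
    len (onSeg D.h.toFun (segP D.v e)) (Icc 0 1) ≤ 2 * eInt D.v e (fun _ => ‖D.L z‖ₑ) := by
  refine (H687.len_onSeg_le D.h hsub).trans ?_
  gcongr
  have h2 : ∀ x ∈ edge D.v e, D.h.toFun x = D.A z x := fun x hx => D.net.box z hz x (h1 hx)
  have h3 := eInt_congr_edge h2 (fun _ w => ENNReal.ofReal ‖w‖)
  rw [h3]
  refine eInt_mono_on fun x _ => ?_
  have h4 : lineDeriv ℝ (D.A z) x (ev e.2) = D.L z (ev e.2) := by
    have h5 : (fun t : ℝ => D.A z (x + t • ev e.2)) = fun t => D.A z x + t • D.L z (ev e.2) := by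
      funext t
      have := D.aff z x (x + t • ev e.2)
      rw [add_sub_cancel_left, map_smul] at this
      rw [← this]; abel
    unfold lineDeriv
    rw [h5]
    have h6 : HasDerivAt (fun t : ℝ => D.A z x + t • D.L z (ev e.2))
        ((1:ℝ) • D.L z (ev e.2)) 0 := by
      exact ((hasDerivAt_id (0:ℝ)).smul_const _).const_add _
    rw [h6.deriv, one_smul]
  rw [h4]
  exact clm_ev_le _ _

/-- length: an edge of the gap -/
theorem len_gap {e : Idx × Fin 3} (hsub : edge D.v e ⊆ Ω) {z : Fin 3 → ℤ} (hz : z ∈ D.J)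
    (h1 : e.1.1 = D.n + D.k₁) (h2 : edge D.v e ⊆ boxB D.v D.n D.k₁ z) :
    len (onSeg D.h.toFun (segP D.v e)) (Icc 0 1) ≤
      2 * ENNReal.ofReal (D.C / 2 ^ (D.n + D.k₁)) := by
  refine (H687.len_onSeg_le D.h hsub).trans ?_
  gcongr
  exact (D.net.gap z hz e h1 h2).trans (ENNReal.ofReal_le_ofReal D.C₀_le)

/-- **[E2]** -/
theorem keyLen (R : RefOut Ω D.v D.n D.k₁ D.k₀ D.J D.Bg D.nf) : D.KeyLen := by
  intro e he
  have hsub : edge D.v e ⊆ Ω := by
    obtain ⟨r, hr, her⟩ := he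
    exact (Gr.edge_subset_dyc her).trans (R.part.sub r hr)
  have hpos : (0:ℝ) < 1 / 2 ^ e.1.1 := by positivity
  have hM := D.M0
  have hC := D.C0
  rcases R.edge_inet e he with ⟨h1, h2⟩ | ⟨z, hz, h1⟩ | ⟨h1, z, hz, h2, -⟩
  · refine (D.len_net hsub h1 h2).trans ?_
    rw [eInt_add_cst, mul_add]
    gcongr ?_ + ?_
    · exact le_rfl
    · rw [← ENNReal.ofReal_mul hpos.le]
      have h3 := D.δ1 e
      have h4 : 1 / 2 ^ e.1.1 * 1 ≤ 1 / 2 ^ e.1.1 * (D.M + D.C + 1) := by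
        apply mul_le_mul_of_nonneg_left _ hpos.le
        linarith
      gcongr
      · norm_num
      · linarith
  · refine (D.len_box hsub hz h1).trans ?_
    gcongr
    · norm_num
    refine eInt_mono_on fun x _ => ?_
    refine (D.enorm_L_le hz).trans (le_trans ?_ le_add_self)
    apply ENNReal.ofReal_le_ofReal
    linarith
  · refine (D.len_gap hsub hz h1 h2).trans ?_
    gcongr
    · norm_num
    rw [eInt_add_cst]
    refine le_trans ?_ le_add_self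
    rw [← ENNReal.ofReal_mul hpos.le, h1]
    apply ENNReal.ofReal_le_ofReal
    rw [div_eq_mul_one_div, mul_comm]
    rw [h1] at hpos
    apply mul_le_mul_of_nonneg_left _ hpos.le
    linarith

end PE

end Vale.Agent.P073.H340
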