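import Vale.Agent.P073.H340.PE
import Vale.Agent.P073.H989.Thin2c

/-!
# P073, [PRE-2] (`p = 2`): the leaves used by the choice of the constants
-/

namespace Vale.Agent.P073.H340

open MeasureTheory Set Filter Topology Metric Vale.Agent.P073.St Vale.Agent.P073.AB
open Vale.Agent.P073.SQ (ev)
open _root_.P073 (ConHomeo)
open _root_.P073.Net (dyc dyo IsTile SizeFn len)
open Vale.Agent.P073.H73 (MinEdge Bix ctr WLe segP onSeg)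
open Vale.Agent.P073.H194 (refine Big wH zo so co MeshOut MeshIn bInt Oc cellT Bk GoodC sInt Gen)
open Vale.Agent.P073.H471 (wgt)
open Vale.Agent.P073.H83 (CellsG gB grho GenB)
open Vale.Agent.P073.H234 (Touch Tch dn NetRes2)
open Vale.Agent.P073.H333 (lay gap core out base inet Mid PD0)
open Vale.Agent.P073.H989 (LocJ)
open scoped ENNReal

/-- the sum over the outer faces of the outer layer -/
noncomputable def faceSum (Ω : Set V) (v : V) (n k₁ k₀ : ℕ) (J : Finset (Fin 3 → ℤ))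
    (H : V → ℝ≥0∞) : ℝ≥0∞ :=
  ∑' i : {i : Idx // i ∈ olay v n k₁ k₀ J},
    ∑' s : {s : Idx × Fin 3 // MinSq v (base Ω v n k₁ k₀ J) s ∧ squ v s ⊆ dyc v i.1.1 i.1.2 ∧
      ∃ r ∈ base Ω v n k₁ k₀ J \ kept v n k₁ k₀ J, squ v s ⊆ dyc v r.1 r.2},
      ENNReal.ofReal (1 / 2 ^ i.1.1) * sInt v s.1 H

/-- the conclusion of **[E7]** -/
def CtrsE (p : ℝ) (CC : ℝ≥0∞) : Prop :=
  ∀ (θ M κ' a₁ : ℝ) (m₁ n k₁ k₀ mt m' : ℕ) (Ω Λ : Set V) (g f : V → V)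
    (G : V → ℝ≥0∞) (v : V) (nn : ℕ → ℕ) (J : Finset (Fin 3 → ℤ)) (A : (Fin 3 → ℤ) → V → V)
    (L : (Fin 3 → ℤ) → V →L[ℝ] V) (H : CellsG θ M κ' m₁ n k₁ Ω Λ g v J A L),
    St.IsBoundedDomain Ω → St.IsBoundedDomain Λ → St.IsHomeo Ω Λ f → StrictMono nn →
    LocJ v n m₁ J A →
    H669.Fine Ω v n k₁ k₀ J → (∀ z x y, A z y - A z x = L z (y - x)) →
    2 ≤ m₁ → 0 < a₁ → a₁ ≤ 1 / 288000 → 288000 * (M / 2 ^ (n + k₁)) ≤ 1 / 2 ^ m₁ →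
    Measurable G → ∫⁻ x, G x ≠ ⊤ → GenB v nn G → (∀ k, GenB v nn (Bk k)) →
    (∀ᵐ c : V, ∀ x ∈ Ω, f x = c → ∀ m, x ∈ dyo v m (H194.idx v m x)) →
    ∃ c : ℕ → (Fin 3 → ℤ) → V,
      Mid (grho 0 v n k₁ m₁ mt m' J A Λ) c ∧
      (∀ m zz, IsTile (grho 0 v n k₁ m₁ mt m' J A Λ) 0 m zz → ∀ z ∈ J, ∀ x ∈ dyc v n z,
        x ∉ boxR v n k₁ z → a₁ / 2 ^ m₁ ≤ ‖c m zz - A z x‖) ∧
      (∀ m zz, IsTile (grho 0 v n k₁ m₁ mt m' J A Λ) 0 m zz →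
        GoodC p Ω f G v nn J A (c m zz)) ∧
      ∫⁻ x in ⋃ q ∈ base Ω v n k₁ k₀ J \ (lay v n k₁ k₀ J ∪ gap v n k₁ J), dyc v q.1 q.2,
        wH p (zo (grho 0 v n k₁ m₁ mt m' J A Λ) (gB H mt))
          (so (grho 0 v n k₁ m₁ mt m' J A Λ) (gB H mt))
          (co (grho 0 v n k₁ m₁ mt m' J A Λ) (gB H mt) c) (H194.fs v n k₁ J A f)
          (H194.Gs p v n k₁ J A L (gB H mt) G) x ≤
        CC * ((∫⁻ x in Ω \ ⋃ z ∈ J, dyc v n z, G x) + ENNReal.ofReal M ^ p *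
          ∑ z ∈ J, volume (dyc v n z \ ⋃ b ∈ {b | b ∈ gB H mt ∧ b.1 = z}, b.cell A)) ∧
      faceSum Ω v n k₁ k₀ J (wH p (zo (grho 0 v n k₁ m₁ mt m' J A Λ) (gB H mt))
          (so (grho 0 v n k₁ m₁ mt m' J A Λ) (gB H mt))
          (co (grho 0 v n k₁ m₁ mt m' J A Λ) (gB H mt) c) (H194.fs v n k₁ J A f)
          (H194.Gs p v n k₁ J A L (gB H mt) G)) ≤ CC * faceSum Ω v n k₁ k₀ J G

/-- **[E7]** the centres -/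
def SpecCtrs2 (p : ℝ) : Prop := ∃ CC : ℝ≥0∞, CC ≠ ⊤ ∧ CtrsE p CC

/-- **[E8]** the data for the mesh -/
def SpecMeshIn2 (p : ℝ) : Prop :=
  ∀ (θ M κ' : ℝ) (m₁ n k₁ k₀ mt m' : ℕ) (Ω Λ : Set V) (g f : V → V)
    (G : V → ℝ≥0∞) (v : V) (nn : ℕ → ℕ) (J : Finset (Fin 3 → ℤ)) (A : (Fin 3 → ℤ) → V → V)
    (L : (Fin 3 → ℤ) → V →L[ℝ] V) (H : CellsG θ M κ' m₁ n k₁ Ω Λ g v J A L)
    (c : ℕ → (Fin 3 → ℤ) → V),
    IsOpen Λ → St.IsHomeo Ω Λ f → StrictMono nn → Measurable G → ∫⁻ x, G x ≠ ⊤ →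
    Gen v nn G → (∀ k, Gen v nn (Bk k)) → H669.Fine Ω v n k₁ k₀ J →
    (∀ z x y, A z y - A z x = L z (y - x)) → m₁ ≤ m' → mt ≤ m' →
    Mid (grho 0 v n k₁ m₁ mt m' J A Λ) c →
    (∀ m z, IsTile (grho 0 v n k₁ m₁ mt m' J A Λ) 0 m z → GoodC p Ω f G v nn J A (c m z)) →
    MeshIn p Ω Λ f G v nn n k₁ J A L (base Ω v n k₁ k₀ J) (kept v n k₁ k₀ J)
      (gB H mt) (co (grho 0 v n k₁ m₁ mt m' J A Λ) (gB H mt) c)

end Vale.Agent.P073.H340
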