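import Vale.Agent.P073.H234.P2Defs
import Vale.Agent.P073.H953.Bypass

/-!
# P073, P2, [PATHS]: the set `NSet` is preconnected
-/

namespace Vale.Agent.P073.H340

open Set Filter Topology Metric Vale.Agent.P073.St Vale.Agent.P073.AB
open Vale.Agent.P073.SQ (ev)
open Vale.Agent.P073.AB.P86 (rel rel_sub lo)
open Vale.Agent.P073.H234
open _root_.P073.Net (dyc dyo)
open _root_.P073 (ConBall)
open _root_.P073.H953

/-! ### Generalities -/

theorem precon_of_join {X : Type*} [TopologicalSpace X] {N B : Set X} (hB : IsPreconnected B)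
    (hBN : B ⊆ N)
    (h : ∀ x ∈ N, ∃ P ⊆ N, IsPreconnected P ∧ x ∈ P ∧ (P ∩ B).Nonempty) :
    IsPreconnected N := by
  rcases N.eq_empty_or_nonempty with rfl | ⟨x0, hx0⟩
  · exact isPreconnected_empty
  obtain ⟨P0, -, -, -, b0, -, hb0⟩ := h x0 hx0
  refine isPreconnected_of_forall b0 fun y hy => ?_
  obtain ⟨P, hPN, hP, hyP, b, hbP, hbB⟩ := h y hy
  exact ⟨P ∪ B, union_subset hPN hBN, Or.inr hb0, Or.inl hyP, hP.union b hbP hbB hB⟩

theorem exists_abs_eq (x : V) : ∃ k, |x k| = ‖x‖ := by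
  obtain ⟨k, -, hk⟩ := Finset.exists_max_image (Finset.univ : Finset (Fin 3)) (fun k => |x k|)
    ⟨0, Finset.mem_univ _⟩
  refine ⟨k, le_antisymm (norm_le_pi_norm x k) ?_⟩
  rw [pi_norm_le_iff_of_nonneg (abs_nonneg _)]
  exact fun i => hk i (Finset.mem_univ _)

theorem abs_le_norm' (x : V) (k : Fin 3) : |x k| ≤ ‖x‖ := norm_le_pi_norm x k

theorem not_between {N : ℕ} {c : ℝ} {a w : ℤ} (h1 : c + (w:ℝ) / 2 ^ N < c + (a:ℝ) / 2 ^ N)
    (h2 : c + (a:ℝ) / 2 ^ N < c + ((w:ℝ) + 1) / 2 ^ N) : False := by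
  have hp : (0:ℝ) < 2 ^ N := by positivity
  have h3 : (w:ℝ) / 2 ^ N < (a:ℝ) / 2 ^ N := by linarith
  have h4 : (a:ℝ) / 2 ^ N < ((w:ℝ) + 1) / 2 ^ N := by linarith
  rw [div_lt_div_iff_of_pos_right hp] at h3 h4
  have h5 : w < a := by exact_mod_cast h3
  have h6 : a < w + 1 := by exact_mod_cast h4
  omega

theorem squ_eq_of_mem {v : V} {s s' : Idx × Fin 3} (hg : s.1.1 = s'.1.1) {x : V}
    (h : x ∈ rel v s) (h' : x ∈ squ v s') : s = s' := by
  obtain ⟨⟨n, w⟩, l⟩ := s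
  obtain ⟨⟨n', w'⟩, l'⟩ := s'
  simp only at hg
  subst hg
  obtain ⟨h1, h2⟩ := h
  obtain ⟨h3, h4⟩ := h'
  simp only at h1 h2 h3 h4
  have hl : l' = l := by
    by_contra hne
    obtain ⟨h5, h6⟩ := h2 l' hne
    rw [h3] at h5 h6
    exact not_between h5 h6
  subst hl
  have hp : (0:ℝ) < 2 ^ n := by positivity
  have hw : w = w' := by
    funext k
    by_cases hk : k = l'
    · subst hk
      rw [h1] at h3
      have : (w k : ℝ) / 2 ^ n = w' k / 2 ^ n := by linarith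
      rw [div_left_inj' hp.ne'] at this
      exact_mod_cast this
    · obtain ⟨h5, h6⟩ := h2 k hk
      obtain ⟨h7, h8⟩ := h4 k hk
      have h9 : (w k : ℝ) / 2 ^ n < (w' k + 1) / 2 ^ n := by linarith
      have h10 : (w' k : ℝ) / 2 ^ n < (w k + 1) / 2 ^ n := by linarith
      rw [div_lt_div_iff_of_pos_right hp] at h9 h10
      have h11 : w k < w' k + 1 := by exact_mod_cast h9
      have h12 : w' k < w k + 1 := by exact_mod_cast h10
      omega
  subst hw
  rfl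

theorem exists_ne2 (k l : Fin 3) : ∃ j : Fin 3, j ≠ k ∧ j ≠ l := by revert k l; decide

/-- a point with two lattice coordinates is not in the relative interior of a square -/
theorem notMem_rel {v : V} {N : ℕ} {x : V} {a : Fin 3 → ℤ} {k : Fin 3}
    (hx : ∀ j, j ≠ k → x j = v j + a j / 2 ^ N) {s : Idx × Fin 3} (hs : s.1.1 = N) :
    x ∉ rel v s := by
  rintro ⟨-, h2⟩
  obtain ⟨j, hj1, hj2⟩ := exists_ne2 k s.2
  obtain ⟨h3, h4⟩ := h2 j hj2
  rw [hx j hj1, hs] at h3 h4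
  exact not_between h3 h4

/-- a point with a lattice coordinate is not in an open lattice cube -/
theorem notMem_dyo {v : V} {N : ℕ} {x : V} {k : Fin 3} {a : ℤ}
    (hx : x k = v k + a / 2 ^ N) (w : Fin 3 → ℤ) : x ∉ dyo v N w := by
  intro h
  obtain ⟨h3, h4⟩ := h k
  rw [hx] at h3 h4
  exact not_between h3 h4

theorem notMem_ownO {v : V} {m j : ℕ} {J : Finset (Fin 3 → ℤ)} {x : V} {k : Fin 3} {a : ℤ}
    (hx : x k = v k + a / 2 ^ (m + j)) : x ∉ ownO v m j J := by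
  intro h
  obtain ⟨w, -, hw⟩ := mem_iUnion₂.1 h
  exact notMem_dyo hx w hw

theorem dbox_lt {v : V} {m : ℕ} {t₀ : ℝ} {o x : V} (h : x ∈ dbox v m t₀ o) (k : Fin 3) :
    |x k - o k| < t₀ + 2 / 2 ^ m := by
  have hp : (0:ℝ) < 2 ^ m := by positivity
  obtain ⟨h1, h2⟩ := h k
  have h3 := Int.floor_le (2 ^ m * (o k - v k))
  have h4 := Int.lt_floor_add_one (2 ^ m * (o k - v k))
  have h5 := Int.ceil_lt_add_one (2 ^ m * t₀)
  have e1 : o k - v k - t₀ - 2 / 2 ^ m =
      (2 ^ m * (o k - v k) - 1 - (2 ^ m * t₀ + 1)) / 2 ^ m := by field_simp; ring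
  have e2 : o k - v k + t₀ + 2 / 2 ^ m =
      (2 ^ m * (o k - v k) + 1 + (2 ^ m * t₀ + 1)) / 2 ^ m := by field_simp; ring
  have h6 : o k - v k - t₀ - 2 / 2 ^ m <
      ((⌊2 ^ m * (o k - v k)⌋ : ℝ) - ⌈2 ^ m * t₀⌉) / 2 ^ m := by
    rw [e1, div_lt_div_iff_of_pos_right hp]; linarith
  have h7 : ((⌊2 ^ m * (o k - v k)⌋ : ℝ) + 1 + ⌈2 ^ m * t₀⌉) / 2 ^ m <
      o k - v k + t₀ + 2 / 2 ^ m := by
    rw [e2, div_lt_div_iff_of_pos_right hp]; linarith
  rw [abs_lt]
  constructor <;> linarith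

/-! ### The setting -/

/-- hypotheses of `SpecPaths` -/
structure Ctx (Ω : Set V) (v : V) (m j : ℕ) (J : Finset (Fin 3 → ℤ)) (t₀ : ℝ) {ι : Type}
    (D c : ι → Set V) (s : ι → Idx × Fin 3) (o : V) (R : ℝ) : Prop where
  pre : IsPreconnected Ω
  fin : Finite ι
  R0 : 0 < R
  small : 4 / 2 ^ m ≤ t₀
  ball : closedBall o (3 * t₀) ⊆ Ω
  cub : ∀ z ∈ J, dyc v m z ⊆ Ω
  vert : ∀ z ∈ J, ∀ a : Fin 3 → ℤ, pt v (m + j) a ∈ dyc v m z →
      closedBall (pt v (m + j) a) (4 * t₀) ⊆ Ω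
  clean : ∀ i, ∃ z ∈ J, Clean v m j z (s i)
  disc : ∀ i, ConBall 2 (D i) (c i)
  disj : ∀ i i', i ≠ i' → Disjoint (D i) (D i')
  sub : ∀ i, D i ⊆ rel v (s i)
  op : ∀ i, ∃ U, IsOpen U ∧ D i \ c i = squ v (s i) ∩ U

section

variable {Ω : Set V} {v : V} {m j : ℕ} {J : Finset (Fin 3 → ℤ)} {t₀ : ℝ} {ι : Type}
  {D c : ι → Set V} {s : ι → Idx × Fin 3} {o : V} {R : ℝ}

/-- `x` is joined to `NExt` in `NSet` -/
def Reach (v : V) (m j : ℕ) (J : Finset (Fin 3 → ℤ)) (t₀ : ℝ) (D c : ι → Set V) (Ω : Set V)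
    (o : V) (R : ℝ) (x : V) : Prop :=
  ∃ P ⊆ NSet v m j J t₀ D c Ω o R, IsPreconnected P ∧ x ∈ P ∧ (P ∩ NExt v m j J t₀ D c Ω o).Nonempty

theorem Reach.trans {x y : V} (h : Reach v m j J t₀ D c Ω o R y) {S : Set V}
    (hS : S ⊆ NSet v m j J t₀ D c Ω o R) (hSc : IsPreconnected S) (hx : x ∈ S) (hy : y ∈ S) :
    Reach v m j J t₀ D c Ω o R x := by
  obtain ⟨P, h1, h2, h3, h4⟩ := h
  refine ⟨S ∪ P, union_subset hS h1, hSc.union y hy h3 h2, Or.inl hx, ?_⟩
  exact h4.mono (inter_subset_inter_left _ subset_union_right)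

theorem Ctx.t0pos (H : Ctx Ω v m j J t₀ D c s o R) : 0 < t₀ :=
  lt_of_lt_of_le (by positivity) H.small

theorem ev_apply (k i : Fin 3) : ev k i = if i = k then 1 else 0 := by
  simp [ev, Pi.single_apply]

theorem norm_ev' (k : Fin 3) : ‖ev k‖ = 1 := by
  refine le_antisymm ?_ ?_
  · rw [pi_norm_le_iff_of_nonneg zero_le_one]
    intro i
    rw [ev_apply]
    split_ifs <;> simp
  · have := abs_le_norm' (ev k) k
    rwa [ev_apply, if_pos rfl, abs_one] at this

theorem nray_end (H : Ctx Ω v m j J t₀ D c s o R) {z a : Fin 3 → ℤ} (hz : z ∈ J)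
    (ha : pt v (m + j) a ∈ dyc v m z) (k : Fin 3) {T : ℝ} (hT : |T| = 2 * t₀)
    (hs : 0 ≤ T * (pt v (m + j) a k - o k)) :
    pt v (m + j) a + T • ev k ∈ NExt v m j J t₀ D c Ω o := by
  have ht := H.t0pos
  have hco : ∀ i, i ≠ k → (pt v (m + j) a + T • ev k) i = v i + a i / 2 ^ (m + j) := by
    intro i hi
    simp [ev_apply, hi, pt]
  refine ⟨H.vert z hz a ha ?_, ?_, fun i hi => ?_, fun hd => ?_⟩
  · rw [mem_closedBall, dist_eq_norm, add_sub_cancel_left, norm_smul, norm_ev', mul_one,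
      Real.norm_eq_abs, hT]
    linarith
  · obtain ⟨i, hi, -⟩ := exists_ne2 k k
    exact notMem_ownO (hco i hi)
  · obtain ⟨z', -, hc⟩ := H.clean i
    exact notMem_rel hco hc.1 (H.sub i hi.1)
  · have h1 := dbox_lt hd k
    have h2 : (pt v (m + j) a + T • ev k) k - o k = T + (pt v (m + j) a k - o k) := by
      simp only [Pi.add_apply, Pi.smul_apply, ev_apply, if_true, smul_eq_mul, mul_one]
      ring
    rw [h2] at h1
    have h3 : |T| ≤ |T + (pt v (m + j) a k - o k)| := by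
      rcases le_total 0 T with h0 | h0
      · rcases h0.eq_or_lt with h0 | h0
        · rw [← h0, abs_zero] at hT; linarith
        · have h4 : 0 ≤ pt v (m + j) a k - o k := nonneg_of_mul_nonneg_right hs h0
          rw [abs_of_pos h0, abs_of_nonneg (by linarith)]; linarith
      · rcases h0.eq_or_lt with h0 | h0
        · rw [h0, abs_zero] at hT; linarith
        · have h4 : pt v (m + j) a k - o k ≤ 0 := by
            by_contra hcon
            have := mul_neg_of_neg_of_pos h0 (not_le.1 hcon)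
            linarith
          rw [abs_of_neg h0, abs_of_neg (by linarith)]; linarith
    have h5 : (2:ℝ) / 2 ^ m ≤ t₀ / 2 := by
      have e : (4:ℝ) / 2 ^ m = 2 * (2 / 2 ^ m) := by ring
      have := H.small
      rw [e] at this; linarith
    rw [hT] at h3
    linarith

theorem reach_ray (H : Ctx Ω v m j J t₀ D c s o R) {z a : Fin 3 → ℤ} (hz : z ∈ J)
    (ha : pt v (m + j) a ∈ dyc v m z) {k : Fin 3} {t : ℝ} (ht : |t| ≤ 2 * t₀)
    (hs : 0 ≤ t * (pt v (m + j) a k - o k))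
    (hk : |pt v (m + j) a k - o k| = ‖pt v (m + j) a - o‖)
    (hR : R < ‖pt v (m + j) a - o‖) :
    Reach v m j J t₀ D c Ω o R (pt v (m + j) a + t • ev k) := by
  have ht0 := H.t0pos
  have hne : pt v (m + j) a k - o k ≠ 0 := by
    intro h
    rw [h, abs_zero] at hk
    linarith [H.R0]
  obtain ⟨T, hT, hTs, hTt⟩ : ∃ T : ℝ, |T| = 2 * t₀ ∧ 0 ≤ T * (pt v (m + j) a k - o k) ∧
      ∃ r ∈ Icc (0:ℝ) 1, t = r * T := by
    rcases lt_or_gt_of_ne hne with h | h
    · refine ⟨-(2 * t₀), by rw [abs_neg, abs_of_pos (by linarith)], ?_, -t / (2 * t₀),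
        ⟨?_, ?_⟩, ?_⟩
      · have := mul_pos (show (0:ℝ) < 2 * t₀ by linarith) (neg_pos.2 h)
        linarith
      · refine div_nonneg ?_ (by linarith)
        by_contra hcon
        have := mul_neg_of_pos_of_neg (show (0:ℝ) < t by linarith) h
        linarith
      · rw [div_le_one (by linarith)]
        exact (neg_le_abs t).trans ht
      · field_simp
    · refine ⟨2 * t₀, abs_of_pos (by linarith), ?_, t / (2 * t₀), ⟨?_, ?_⟩, ?_⟩
      · have := mul_pos (show (0:ℝ) < 2 * t₀ by linarith) h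
        linarith
      · refine div_nonneg ?_ (by linarith)
        by_contra hcon
        have := mul_neg_of_neg_of_pos (show t < 0 by linarith) h
        linarith
      · rw [div_le_one (by linarith)]
        exact (le_abs_self t).trans ht
      · field_simp
  obtain ⟨r, hr, rfl⟩ := hTt
  have hsub : ∀ q ∈ Icc (0:ℝ) 1, pt v (m + j) a + (q * T) • ev k ∈
      NSet v m j J t₀ D c Ω o R := by
    intro q hq
    refine Or.inr ⟨z, hz, a, ha, k, q * T, ?_, rfl, ?_, hk, hR⟩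
    · rw [abs_mul, hT, abs_of_nonneg hq.1]
      have := mul_le_mul_of_nonneg_right hq.2 (show (0:ℝ) ≤ 2 * t₀ by linarith)
      linarith
    · rw [mul_assoc]
      exact mul_nonneg hq.1 hTs
  refine ⟨(fun q : ℝ => pt v (m + j) a + (q * T) • ev k) '' Icc (0:ℝ) 1, ?_, ?_, ⟨r, hr, rfl⟩,
    pt v (m + j) a + (1 * T) • ev k, ⟨1, right_mem_Icc.2 zero_le_one, rfl⟩, ?_⟩
  · rintro _ ⟨q, hq, rfl⟩
    exact hsub q hq
  · refine isPreconnected_Icc.image _ (Continuous.continuousOn ?_)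
    fun_prop
  · rw [one_mul]
    exact nray_end H hz ha k hT hTs

theorem reach_vert (H : Ctx Ω v m j J t₀ D c s o R) {z a : Fin 3 → ℤ} (hz : z ∈ J)
    (ha : pt v (m + j) a ∈ dyc v m z) (hR : R < ‖pt v (m + j) a - o‖) :
    Reach v m j J t₀ D c Ω o R (pt v (m + j) a) := by
  obtain ⟨k, hk⟩ := exists_abs_eq (pt v (m + j) a - o)
  have := reach_ray H hz ha (k := k) (t := 0) (by rw [abs_zero]; linarith [H.t0pos])
    (by rw [zero_mul]) hk hR
  simpa using this

/-! ### Edges -/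

theorem pt_up (v : V) (N : ℕ) (w : Fin 3 → ℤ) (k : Fin 3) :
    pt v N (Function.update w k (w k + 1)) = Function.update (pt v N w) k
      (v k + (w k + 1) / 2 ^ N) := by
  funext i
  by_cases hi : i = k
  · subst hi
    simp [pt]
  · simp [pt, hi]

theorem reach_edge (H : Ctx Ω v m j J t₀ D c s o R) {z : Fin 3 → ℤ} (hz : z ∈ J)
    {e : Idx × Fin 3} (he : e.1.1 = m + j) (hez : edge v e ⊆ dyc v m z) {x : V}
    (hx : x ∈ edge v e) (hR : R < ‖x - o‖) : Reach v m j J t₀ D c Ω o R x := by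
  obtain ⟨⟨n, w⟩, k⟩ := e
  simp only at he
  subst he
  have hp : (0:ℝ) < 1 / 2 ^ (m + j) := by positivity
  have hpt : ∀ y ∈ edge v ((m + j, w), k), ∀ i, i ≠ k → y i = x i := by
    intro y hy i hi
    rw [(mem_edge_iff.1 hy).2 i hi, (mem_edge_iff.1 hx).2 i hi]
  have hlow : pt v (m + j) w ∈ edge v ((m + j, w), k) := by
    rw [mem_edge_iff]
    refine ⟨⟨le_rfl, ?_⟩, fun i _ => rfl⟩
    show v k + w k / 2 ^ (m + j) ≤ _
    gcongr; linarith
  have hupp : pt v (m + j) (Function.update w k (w k + 1)) ∈ edge v ((m + j, w), k) := by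
    rw [mem_edge_iff, pt_up]
    refine ⟨?_, fun i hi => ?_⟩
    · rw [Function.update_self]
      refine ⟨?_, le_rfl⟩
      gcongr; linarith
    · rw [Function.update_of_ne hi]; rfl
  have hxm := (mem_edge_iff.1 hx).1
  have hconv : Convex ℝ (edge v ((m + j, w), k)) := convex_segment _ _
  -- a segment on which the distance is large, ending at a vertex
  have main : ∀ a : Fin 3 → ℤ, pt v (m + j) a ∈ edge v ((m + j, w), k) →
      (∀ y ∈ segment ℝ x (pt v (m + j) a), R < ‖y - o‖) → Reach v m j J t₀ D c Ω o R x := by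
    intro a ha hseg
    have h1 := reach_vert H hz (hez ha) (hseg _ (right_mem_segment ℝ _ _))
    refine h1.trans (S := segment ℝ x (pt v (m + j) a)) (fun y hy => ?_)
      (convex_segment _ _).isPreconnected (left_mem_segment ℝ _ _) (right_mem_segment ℝ _ _)
    exact Or.inl (Or.inr ⟨⟨z, hz, _, rfl, hez, hconv.segment_subset hx ha hy⟩, hseg y hy⟩)
  obtain ⟨i, hi⟩ := exists_abs_eq (x - o)
  by_cases hik : i = k
  · subst hik
    rcases le_total 0 ((x - o) i) with h0 | h0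
    · refine main _ hupp fun y hy => ?_
      have h1 : x i ≤ y i := by
        have h2 : x i ≤ pt v (m + j) (Function.update w i (w i + 1)) i := by
          rw [pt_up, Function.update_self]; exact hxm.2
        obtain ⟨a, b, ha, hb, hab, rfl⟩ := hy
        simp only [Pi.add_apply, Pi.smul_apply, smul_eq_mul]
        have h3 := mul_nonneg hb (sub_nonneg.2 h2)
        have h4 : a = 1 - b := by linarith
        rw [h4]
        linarith
      have h3 := abs_le_norm' (y - o) i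
      rw [← hi, abs_of_nonneg h0] at hR
      have h4 := le_abs_self ((y - o) i)
      simp only [Pi.sub_apply] at hR h3 h4 ⊢
      linarith
    · refine main _ hlow fun y hy => ?_
      have h1 : y i ≤ x i := by
        have h2 : pt v (m + j) w i ≤ x i := hxm.1
        obtain ⟨a, b, ha, hb, hab, rfl⟩ := hy
        simp only [Pi.add_apply, Pi.smul_apply, smul_eq_mul]
        have h3 := mul_nonneg hb (sub_nonneg.2 h2)
        have h4 : a = 1 - b := by linarith
        rw [h4]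
        linarith
      have h3 := abs_le_norm' (y - o) i
      rw [← hi, abs_of_nonpos h0] at hR
      have h4 := neg_le_abs ((y - o) i)
      simp only [Pi.sub_apply] at hR h3 h4 ⊢
      linarith
  · refine main _ hlow fun y hy => ?_
    have h1 := hpt y (hconv.segment_subset hx hlow hy) i hik
    have h3 := abs_le_norm' (y - o) i
    rw [Pi.sub_apply, h1] at h3
    rw [← hi, Pi.sub_apply] at hR
    linarith

/-! ### Squares -/

theorem isPreconnected_conBall {E : Type*} [NormedAddCommGroup E] [NormedSpace ℝ E] {n : ℕ}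
    {C B : Set E} (h : ConBall n C B) : IsPreconnected C := by
  obtain ⟨-, φ, -⟩ := h
  have h1 : φ.invFun '' closedBall 0 1 = C := φ.symm.image_eq
  rw [← h1]
  exact (convex_closedBall _ _).isPreconnected.image _ φ.cont_inv

/-- from a point of a square to its boundary, away from `o` -/
theorem exists_seg {s : Idx × Fin 3} {y o : V} (hy : y ∈ squ v s) :
    ∃ y' ∈ bds v s, segment ℝ y y' ⊆ squ v s ∧ ∀ x ∈ segment ℝ y y', ‖y - o‖ ≤ ‖x - o‖ := by
  obtain ⟨i, hi⟩ := exists_abs_eq (y - o)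
  -- the direction
  obtain ⟨k, hk, hik⟩ : ∃ k, k ≠ s.2 ∧ (i = k ∨ i = s.2) := by
    by_cases h : i = s.2
    · obtain ⟨k, hk, -⟩ := exists_ne2 s.2 s.2
      exact ⟨k, hk, Or.inr h⟩
    · exact ⟨i, h, Or.inl rfl⟩
  have main : ∀ c : ℝ, (c = v k + s.1.2 k / 2 ^ s.1.1 ∨ c = v k + (s.1.2 k + 1) / 2 ^ s.1.1) →
      (0 ≤ (c - y k) * (y k - o k)) →
      ∃ y' ∈ bds v s, segment ℝ y y' ⊆ squ v s ∧ ∀ x ∈ segment ℝ y y', ‖y - o‖ ≤ ‖x - o‖ := by
    intro c hc hcs
    have hp : (0:ℝ) < 1 / 2 ^ s.1.1 := by positivity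
    have hmem : Function.update y k c ∈ squ v s := by
      refine ⟨by rw [Function.update_of_ne hk.symm]; exact hy.1, fun j hj => ?_⟩
      by_cases hjk : j = k
      · subst hjk
        rw [Function.update_self, P86.div_add_one]
        rcases hc with rfl | rfl
        · constructor <;> linarith
        · rw [P86.div_add_one]; constructor <;> linarith
      · rw [Function.update_of_ne hjk]; exact hy.2 j hj
    refine ⟨Function.update y k c, mem_bds.2 ⟨hmem, k, hk, by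
      rw [Function.update_self]; exact hc⟩, (convex_squ s).segment_subset hy hmem, ?_⟩
    rintro _ ⟨a, b, ha, hb, hab, rfl⟩
    rw [← hi]
    refine le_trans ?_ (abs_le_norm' _ i)
    have e : (a • y + b • Function.update y k c - o) i =
        (if i = k then b * (c - y k) else 0) + (y i - o i) := by
      simp only [Pi.sub_apply, Pi.add_apply, Pi.smul_apply, smul_eq_mul]
      split_ifs with h
      · subst h
        rw [Function.update_self]
        have : a = 1 - b := by linarith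
        rw [this]; ring
      · rw [Function.update_of_ne h, ← add_mul, hab, one_mul]; ring
    rw [e, Pi.sub_apply]
    rcases hik with rfl | hil
    · rw [if_pos rfl]
      have h1 : 0 ≤ (b * (c - y i)) * (y i - o i) := by
        rw [mul_assoc]; exact mul_nonneg hb hcs
      exact sq_le_sq.1 (by nlinarith [sq_nonneg (b * (c - y i))])
    · have : i ≠ k := fun h => hk (h ▸ hil)
      rw [if_neg this, zero_add]
  rcases le_total 0 (y k - o k) with h0 | h0
  · exact main _ (Or.inr rfl) (mul_nonneg (by linarith [(hy.2 k hk).2]) h0)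
  · exact main _ (Or.inl rfl) (mul_nonneg_of_nonpos_of_nonpos (by linarith [(hy.2 k hk).1]) h0)

theorem edge_of_clean {z : Fin 3 → ℤ} {q : Idx × Fin 3} (hq : Clean v m j z q) {x : V}
    (hx : x ∈ bds v q) :
    ∃ e : Idx × Fin 3, e.1.1 = m + j ∧ edge v e ⊆ dyc v m z ∧ x ∈ edge v e := by
  have hsq : squ v q ⊆ dyc v m z := by
    have h1 := hq.2.1
    rw [← hq.1] at h1
    exact P86.squ_sub_hi.trans h1
  have key : ∀ e : Idx × Fin 3, e.1.1 = q.1.1 → edge v e ⊆ squ v q → x ∈ edge v e →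
      ∃ e : Idx × Fin 3, e.1.1 = m + j ∧ edge v e ⊆ dyc v m z ∧ x ∈ edge v e :=
    fun e h1 h2 h3 => ⟨e, h1.trans hq.1, h2.trans hsq, h3⟩
  have hsub : ∀ (w : Fin 3 → ℤ) (k : Fin 3), k ≠ q.2 → w q.2 = q.1.2 q.2 → w k = q.1.2 k →
      (∀ i, i ≠ q.2 → i ≠ k → w i = q.1.2 i ∨ w i = q.1.2 i + 1) →
      edge v ((q.1.1, w), k) ⊆ squ v q := by
    intro w k hk h1 h2 h3 y hy
    have hp : (0:ℝ) < 1 / 2 ^ q.1.1 := by positivity
    obtain ⟨h4, h5⟩ := mem_edge_iff.1 hy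
    refine ⟨by rw [h5 _ hk.symm, h1], fun i hi => ?_⟩
    by_cases hik : i = k
    · subst hik
      rw [h2] at h4; exact h4
    · rw [h5 i hik]
      rcases h3 i hi hik with h | h
      · rw [h, P86.div_add_one]; constructor <;> linarith
      · rw [h]; push_cast; rw [P86.div_add_one]; constructor <;> linarith
  have hup : ∀ i j : Fin 3, up q.1.2 i j = q.1.2 j ∨ up q.1.2 i j = q.1.2 j + 1 := by
    intro i j
    by_cases h : j = i
    · subst h; exact Or.inr (up_same _ _)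
    · exact Or.inl (up_ne _ h)
  rcases bds_cases hx with h | h | h | h
  · exact key (eA q) rfl (hsub q.1.2 (t1 q.2) (t1_ne _) rfl rfl fun i _ _ => Or.inl rfl) h
  · exact key (eA' q) rfl (hsub (up q.1.2 (t2 q.2)) (t1 q.2) (t1_ne _) (up_ne _ (t2_ne _).symm)
      (up_ne _ (t1_ne_t2 _)) fun i _ _ => hup _ _) h
  · exact key (eB q) rfl (hsub q.1.2 (t2 q.2) (t2_ne _) rfl rfl fun i _ _ => Or.inl rfl) h
  · exact key (eB' q) rfl (hsub (up q.1.2 (t1 q.2)) (t2 q.2) (t2_ne _) (up_ne _ (t1_ne _).symm)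
      (up_ne _ (t1_ne_t2 _).symm) fun i _ _ => hup _ _) h

theorem reach_squ (H : Ctx Ω v m j J t₀ D c s o R) {z : Fin 3 → ℤ} (hz : z ∈ J)
    {q : Idx × Fin 3} (hq : Clean v m j z q) {y : V} (hy : y ∈ squ v q)
    (hyD : ∀ i, y ∉ D i \ c i) (hR : R < ‖y - o‖) : Reach v m j J t₀ D c Ω o R y := by
  classical
  have := H.fin
  obtain ⟨y', hy', hseg, hdist⟩ := exists_seg (o := o) hy
  obtain ⟨e, he1, he2, he3⟩ := edge_of_clean hq hy'
  have hy'R : R < ‖y' - o‖ := hR.trans_le (hdist _ (right_mem_segment ℝ _ _))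
  have hreach := reach_edge H hz he1 he2 he3 hy'R
  set S := segment ℝ y y' with hS
  have hSc : IsPreconnected S := (convex_segment _ _).isPreconnected
  have hyS : y ∈ S := left_mem_segment ℝ _ _
  have hyS' : y' ∈ S := right_mem_segment ℝ _ _
  -- discs which meet the square are in the square
  have hsame : ∀ i, (D i ∩ squ v q).Nonempty → s i = q := by
    rintro i ⟨x, hx1, hx2⟩
    obtain ⟨z', -, hc⟩ := H.clean i
    exact squ_eq_of_mem (hc.1.trans hq.1.symm) (H.sub i hx1) hx2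
  have hcD : ∀ i, c i ⊆ D i := fun i => (H.disc i).1
  have hcl : ∀ i, IsClosed (D i) := fun i => (H.disc i).isCompact.isClosed
  -- discs whose circle misses the segment
  have hmiss : ∀ i, ¬ (c i ∩ S).Nonempty → ¬ (D i ∩ S).Nonempty := by
    rintro i hi ⟨x, hx1, hx2⟩
    have hsi := hsame i ⟨x, hx1, hseg hx2⟩
    obtain ⟨U, hU1, hU2⟩ := H.op i
    rw [hsi] at hU2
    have h1 := hSc U (D i)ᶜ hU1 (hcl i).isOpen_compl (fun w hw => by
      by_cases hwD : w ∈ D i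
      · left
        have hwc : w ∉ c i := fun hwc => hi ⟨w, hwc, hw⟩
        exact (hU2 ▸ (⟨hwD, hwc⟩ : w ∈ D i \ c i) : w ∈ squ v q ∩ U).2
      · exact Or.inr hwD)
      ⟨x, hx2, by
        have hxc : x ∉ c i := fun hwc => hi ⟨x, hwc, hx2⟩
        exact (hU2 ▸ (⟨hx1, hxc⟩ : x ∈ D i \ c i) : x ∈ squ v q ∩ U).2⟩
      ⟨y, hyS, fun hyDi => hyD i ⟨hyDi, fun hyc => hi ⟨y, hyc, hyS⟩⟩⟩
    obtain ⟨w, hwS, hwU, hwD⟩ := h1
    exact hwD (hU2 ▸ (⟨hseg hwS, hwU⟩ : w ∈ squ v q ∩ U) : w ∈ D i \ c i).1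
  -- the index set
  let ι' : Type := {i : ι // (c i ∩ S).Nonempty}
  have hsame' : ∀ i : ι', s i.1 = q := fun i => by
    obtain ⟨x, hx1, hx2⟩ := i.2
    exact hsame _ ⟨x, hcD _ hx1, hseg hx2⟩
  set X : Set V := S ∪ ⋃ i : ι', D i.1 with hX
  have hXq : X ⊆ squ v q := by
    refine union_subset hseg (iUnion_subset fun i => ?_)
    have := H.sub i.1
    rw [hsame' i] at this
    exact this.trans rel_sub
  have hXc : IsPreconnected X := by
    refine isPreconnected_of_forall y fun x hx => ?_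
    rcases hx with hx | hx
    · exact ⟨S, subset_union_left, hyS, hx, hSc⟩
    · obtain ⟨i, hi⟩ := mem_iUnion.1 hx
      obtain ⟨w, hw1, hw2⟩ := i.2
      refine ⟨S ∪ D i.1, union_subset subset_union_left
        ((subset_iUnion (fun i : ι' => D i.1) i).trans subset_union_right),
        Or.inl hyS, Or.inr hi, hSc.union w hw2 (hcD _ hw1) ?_⟩
      exact isPreconnected_conBall (H.disc i.1)
  have hP : IsPreconnected (X \ ⋃ i : ι', D i.1 \ c i.1) := by
    refine bypass hXc (C := fun i : ι' => c i.1) (fun i => ?_) (fun i i' hii' => ?_)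
      (fun i => bdry_preconn le_rfl (H.disc i.1)) (fun i x hx => ?_) fun i x hx => ?_
    · obtain ⟨U, hU1, hU2⟩ := H.op i.1
      refine ⟨U, hU1, subset_antisymm (fun x hx => ?_) fun x hx => ?_⟩
      · have hx' := hx
        rw [hU2] at hx'
        exact ⟨Or.inr (mem_iUnion.2 ⟨i, hx.1⟩), hx'.2⟩
      · rw [hU2, hsame' i]; exact ⟨hXq hx.1, hx.2⟩
    · have hne : i.1 ≠ i'.1 := fun h => hii' (Subtype.ext h)
      exact (H.disj _ _ hne).mono sdiff_subset sdiff_subset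
    · refine ⟨Or.inr (mem_iUnion.2 ⟨i, hcD _ hx⟩), fun hx' => ?_⟩
      obtain ⟨i', hi'⟩ := mem_iUnion.1 hx'
      by_cases hii' : i.1 = i'.1
      · exact hi'.2 (hii' ▸ hx)
      · exact (disjoint_left.1 (H.disj _ _ hii')) (hcD _ hx) hi'.1
    · have h1 : x ∈ D i.1 := by
        have := closure_mono (sdiff_subset : D i.1 \ c i.1 ⊆ D i.1) hx.2
        rwa [(hcl i.1).closure_eq] at this
      by_cases h2 : x ∈ c i.1
      · exact Or.inr h2
      · exact Or.inl ⟨h1, h2⟩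
  refine hreach.trans (S := X \ ⋃ i : ι', D i.1 \ c i.1) ?_ hP ?_ ?_
  · -- in `NSet`
    rintro x ⟨hxX, hxG⟩
    have hxG' : ∀ i : ι', x ∉ D i.1 \ c i.1 := fun i h => hxG (mem_iUnion.2 ⟨i, h⟩)
    rcases hxX with hxS | hxD
    · by_cases h : ∃ i, x ∈ D i
      · obtain ⟨i, hi⟩ := h
        have hic : (c i ∩ S).Nonempty := by
          by_contra hcon
          exact hmiss i hcon ⟨x, hi, hxS⟩
        have hxc : x ∈ c i := by
          by_contra hcon
          exact hxG' ⟨i, hic⟩ ⟨hi, hcon⟩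
        exact Or.inl (Or.inl (Or.inr ⟨i, hxc, x, hxc, hR.trans_le (hdist x hxS)⟩))
      · push Not at h
        exact Or.inl (Or.inl (Or.inl (Or.inr ⟨⟨z, hz, q, hq, hseg hxS⟩, h,
          hR.trans_le (hdist x hxS)⟩)))
    · obtain ⟨i, hi⟩ := mem_iUnion.1 hxD
      have hxc : x ∈ c i.1 := by
        by_contra hcon
        exact hxG' i ⟨hi, hcon⟩
      obtain ⟨w, hw1, hw2⟩ := i.2
      exact Or.inl (Or.inl (Or.inr ⟨i.1, hxc, w, hw1, hR.trans_le (hdist w hw2)⟩))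
  · exact ⟨Or.inl hyS, fun h => by
      obtain ⟨i, hi⟩ := mem_iUnion.1 h
      exact hyD _ hi⟩
  · refine ⟨Or.inl hyS', fun h => ?_⟩
    obtain ⟨i, hi⟩ := mem_iUnion.1 h
    have h1 := H.sub i.1 hi.1
    rw [hsame' i] at h1
    exact hy'.2 h1

/-! ### The exterior -/

theorem ownQ_finite (v : V) (m j : ℕ) (J : Finset (Fin 3 → ℤ)) : (ownQ v m j J).Finite := by
  have h : ownQ v m j J ⊆ ⋃ z ∈ J, Icc (fun k => 2 ^ j * z k : Fin 3 → ℤ)
      (fun k => 2 ^ j * (z k + 1)) := by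
    rintro w ⟨z, hz, hw⟩
    refine mem_iUnion₂.2 ⟨z, hz, ?_⟩
    have h1 : pt v (m + j) w ∈ dyc v m z := hw fun k => ⟨le_rfl, by
      show v k + w k / 2 ^ (m + j) ≤ _
      gcongr; linarith⟩
    have h2 : (2:ℝ) ^ (m + j) = 2 ^ m * 2 ^ j := pow_add _ _ _
    have hp : (0:ℝ) < 2 ^ m := by positivity
    have hq : (0:ℝ) < 2 ^ j := by positivity
    refine ⟨fun k => ?_, fun k => ?_⟩
    · have h3 : v k + (z k : ℝ) / 2 ^ m ≤ v k + w k / 2 ^ (m + j) := (h1 k).1
      have h4 : (z k : ℝ) / 2 ^ m ≤ w k / 2 ^ (m + j) := by linarith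
      rw [h2, div_le_div_iff₀ hp (by positivity)] at h4
      have h5 : (2 ^ j * z k : ℝ) ≤ w k := by
        have : (2:ℝ) ^ m * (2 ^ j * z k) ≤ 2 ^ m * w k := by linarith
        exact le_of_mul_le_mul_left this hp
      show 2 ^ j * z k ≤ w k
      exact_mod_cast h5
    · have h3 : v k + w k / 2 ^ (m + j) ≤ v k + ((z k : ℝ) + 1) / 2 ^ m := (h1 k).2
      have h4 : w k / 2 ^ (m + j) ≤ ((z k : ℝ) + 1) / 2 ^ m := by linarith
      rw [h2, div_le_div_iff₀ (by positivity) hp] at h4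
      have h5 : (w k : ℝ) ≤ (2 ^ j * (z k + 1) : ℝ) := by
        have : (2:ℝ) ^ m * w k ≤ 2 ^ m * (2 ^ j * (z k + 1)) := by linarith
        exact le_of_mul_le_mul_left this hp
      show w k ≤ 2 ^ j * (z k + 1)
      exact_mod_cast h5
  exact (J.finite_toSet.biUnion fun z _ => finite_Icc _ _).subset h

theorem dbox_eq (v : V) (m j : ℕ) (t₀ : ℝ) (o : V) : dbox v m t₀ o = lbox v (m + j)
    (fun k => 2 ^ j * (⌊2 ^ m * (o k - v k)⌋ - ⌈2 ^ m * t₀⌉))
    (fun k => 2 ^ j * (⌊2 ^ m * (o k - v k)⌋ + 1 + ⌈2 ^ m * t₀⌉)) := by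
  have hp : (0:ℝ) < 2 ^ m := by positivity
  have hq : (0:ℝ) < 2 ^ j := by positivity
  have key : ∀ a : ℝ, 2 ^ j * a / 2 ^ (m + j) = a / 2 ^ m := by
    intro a
    rw [pow_add, mul_comm ((2:ℝ) ^ m), mul_div_mul_left _ _ hq.ne']
  ext x
  simp only [dbox, lbox, obox, mem_ofPred_eq]
  push_cast
  simp only [key]

theorem dbox_closed (H : Ctx Ω v m j J t₀ D c s o R) {x : V}
    (hx : ∀ k, v k + ((⌊2 ^ m * (o k - v k)⌋ : ℝ) - ⌈2 ^ m * t₀⌉) / 2 ^ m ≤ x k ∧
      x k ≤ v k + ((⌊2 ^ m * (o k - v k)⌋ : ℝ) + 1 + ⌈2 ^ m * t₀⌉) / 2 ^ m) : x ∈ Ω := by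
  have ht := H.t0pos
  refine H.ball ?_
  rw [mem_closedBall, dist_eq_norm, pi_norm_le_iff_of_nonneg (by linarith)]
  intro k
  have hp : (0:ℝ) < 2 ^ m := by positivity
  obtain ⟨h1, h2⟩ := hx k
  have h3 := Int.floor_le (2 ^ m * (o k - v k))
  have h4 := Int.lt_floor_add_one (2 ^ m * (o k - v k))
  have h5 := Int.ceil_lt_add_one (2 ^ m * t₀)
  have e1 : o k - v k - t₀ - 2 / 2 ^ m =
      (2 ^ m * (o k - v k) - 1 - (2 ^ m * t₀ + 1)) / 2 ^ m := by field_simp; ring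
  have e2 : o k - v k + t₀ + 2 / 2 ^ m =
      (2 ^ m * (o k - v k) + 1 + (2 ^ m * t₀ + 1)) / 2 ^ m := by field_simp; ring
  have h6 : o k - v k - t₀ - 2 / 2 ^ m <
      ((⌊2 ^ m * (o k - v k)⌋ : ℝ) - ⌈2 ^ m * t₀⌉) / 2 ^ m := by
    rw [e1, div_lt_div_iff_of_pos_right hp]; linarith
  have h7 : ((⌊2 ^ m * (o k - v k)⌋ : ℝ) + 1 + ⌈2 ^ m * t₀⌉) / 2 ^ m <
      o k - v k + t₀ + 2 / 2 ^ m := by
    rw [e2, div_lt_div_iff_of_pos_right hp]; linarith
  have h8 : (2:ℝ) / 2 ^ m ≤ t₀ / 2 := by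
    have e : (4:ℝ) / 2 ^ m = 2 * (2 / 2 ^ m) := by ring
    have := H.small
    rw [e] at this; linarith
  rw [Real.norm_eq_abs, Pi.sub_apply, abs_le]
  constructor <;> linarith

theorem notMem_dyo_of_rel {q : Idx × Fin 3} {x : V} (h : x ∈ rel v q) (w : Fin 3 → ℤ) :
    x ∉ dyo v q.1.1 w := notMem_dyo h.1 w

theorem rel_lbox {N : ℕ} {a b : Fin 3 → ℤ} {q : Idx × Fin 3} (hq : q.1.1 = N) {x : V}
    (hx : x ∈ rel v q) (hxb : x ∈ lbox v N a b) : rel v q ⊆ lbox v N a b := by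
  subst hq
  have hp : (0:ℝ) < 2 ^ q.1.1 := by positivity
  intro y hy k
  have h1 : v k + (a k : ℝ) / 2 ^ q.1.1 < x k := (hxb k).1
  have h2 : x k < v k + (b k : ℝ) / 2 ^ q.1.1 := (hxb k).2
  show v k + (a k : ℝ) / 2 ^ q.1.1 < y k ∧ y k < v k + (b k : ℝ) / 2 ^ q.1.1
  by_cases hk : k = q.2
  · subst hk
    rw [hy.1, ← hx.1]; exact ⟨h1, h2⟩
  · obtain ⟨h3, h4⟩ := hx.2 k hk
    obtain ⟨h5, h6⟩ := hy.2 k hk
    have h7 : (a k : ℝ) / 2 ^ q.1.1 < (q.1.2 k + 1) / 2 ^ q.1.1 := by linarith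
    have h8 : (q.1.2 k : ℝ) / 2 ^ q.1.1 < b k / 2 ^ q.1.1 := by linarith
    rw [div_lt_div_iff_of_pos_right hp] at h7 h8
    have h9 : a k < q.1.2 k + 1 := by exact_mod_cast h7
    have h10 : q.1.2 k < b k := by exact_mod_cast h8
    have h11 : (a k : ℝ) ≤ q.1.2 k := by exact_mod_cast (by omega : a k ≤ q.1.2 k)
    have h12 : ((q.1.2 k : ℝ) + 1) ≤ b k := by exact_mod_cast (by omega : q.1.2 k + 1 ≤ b k)
    have h13 : (a k : ℝ) / 2 ^ q.1.1 ≤ q.1.2 k / 2 ^ q.1.1 := by gcongr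
    have h14 : ((q.1.2 k : ℝ) + 1) / 2 ^ q.1.1 ≤ b k / 2 ^ q.1.1 := by gcongr
    constructor <;> linarith

theorem lo_eq_dn (q : Idx × Fin 3) : lo q = dn q := by
  funext k
  by_cases hk : k = q.2
  · subst hk
    rw [P86.lo_same]; simp [dn]
  · rw [P86.lo_other q hk]; simp [dn, hk]

theorem clean_own {z : Fin 3 → ℤ} (hz : z ∈ J) {q : Idx × Fin 3} (hq : Clean v m j z q) :
    dyo v q.1.1 q.1.2 ⊆ ownO v m j J ∧ dyo v q.1.1 (lo q) ⊆ ownO v m j J := by
  rw [hq.1, lo_eq_dn]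
  exact ⟨fun x hx => mem_iUnion₂.2 ⟨_, ⟨z, hz, hq.2.1⟩, hx⟩,
    fun x hx => mem_iUnion₂.2 ⟨_, ⟨z, hz, hq.2.2⟩, hx⟩⟩

theorem precon_ext (H : Ctx Ω v m j J t₀ D c s o R) :
    IsPreconnected (NExt v m j J t₀ D c Ω o) := by
  classical
  have := H.fin
  set a : Fin 3 → ℤ := fun k => 2 ^ j * (⌊2 ^ m * (o k - v k)⌋ - ⌈2 ^ m * t₀⌉) with ha
  set b : Fin 3 → ℤ := fun k => 2 ^ j * (⌊2 ^ m * (o k - v k)⌋ + 1 + ⌈2 ^ m * t₀⌉) with hb
  have hdb : dbox v m t₀ o = lbox v (m + j) a b := dbox_eq v m j t₀ o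
  have hab : ∀ k, a k < b k := by
    intro k
    have h1 : 0 ≤ ⌈2 ^ m * t₀⌉ := Int.ceil_nonneg (by have := H.t0pos; positivity)
    have h2 : (0:ℤ) < 2 ^ j := by positivity
    simp only [ha, hb]
    exact mul_lt_mul_of_pos_left (by omega) h2
  have hq : (0:ℝ) < 2 ^ j := by positivity
  have key : ∀ a : ℝ, 2 ^ j * a / 2 ^ (m + j) = a / 2 ^ m := by
    intro a
    rw [pow_add, mul_comm ((2:ℝ) ^ m), mul_div_mul_left _ _ hq.ne']
  have hX := ext_lattice H.pre v (m + j) hab (Q := ownQ v m j J) (by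
      rintro x ⟨hx1, hx2⟩
      refine dbox_closed H fun k => ?_
      have h1 := hx1 k
      have h2 := hx2 k
      simp only [ha, hb] at h1 h2
      push_cast at h1 h2
      rw [key] at h1 h2
      exact ⟨h1, h2⟩) (ownQ_finite v m j J) (by
      rintro w ⟨z, hz, hw⟩
      exact hw.trans (H.cub z hz))
  have hown : (⋃ z ∈ ownQ v m j J, dyo v (m + j) z) = ownO v m j J := rfl
  rw [hown, ← hdb] at hX
  let ι' : Type := {i : ι // Disjoint (D i) (dbox v m t₀ o)}
  have h := ext_discs hX (v := v) (ι := ι') (s := fun i => s i.1) (E := fun i => D i.1)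
    (κ := fun i => c i.1) (fun i => H.disc _) (fun i => H.sub _) (fun i => H.op _)
    (fun i i' hii' => H.disj _ _ fun h => hii' (Subtype.ext h))
    (fun i x hx => by
      obtain ⟨z, hz, hc⟩ := H.clean i.1
      have hrel := H.sub i.1 hx
      refine ⟨?_, ?_⟩
      · have h1 := P86.squ_sub_hi (rel_sub hrel)
        rw [hc.1] at h1
        exact H.cub z hz (hc.2.1 h1)
      · rintro (h1 | h1)
        · exact disjoint_left.1 i.2 hx h1
        · have h2 := hrel.1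
          rw [hc.1] at h2
          exact notMem_ownO h2 h1)
    (fun i => by
      obtain ⟨z, hz, hc⟩ := H.clean i.1
      exact disjoint_left.2 fun x hx hx' => hx.2 (Or.inr ((clean_own hz hc).1 hx')))
    (fun i => by
      obtain ⟨z, hz, hc⟩ := H.clean i.1
      exact disjoint_left.2 fun x hx hx' => hx.2 (Or.inr ((clean_own hz hc).2 hx')))
  refine (?_ : _ = NExt v m j J t₀ D c Ω o) ▸ h
  refine (subset_antisymm ?_ ?_).symm
  · rintro x ⟨h1, h2, h3, h4⟩
    refine ⟨⟨h1, fun h5 => h5.elim h4 h2⟩, fun h5 => ?_⟩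
    obtain ⟨i, hi⟩ := mem_iUnion.1 h5
    exact h3 _ hi
  · rintro x ⟨⟨h1, h2⟩, h3⟩
    refine ⟨h1, fun h => h2 (Or.inr h), fun i hi => ?_, fun h => h2 (Or.inl h)⟩
    by_cases hd : Disjoint (D i) (dbox v m t₀ o)
    · exact h3 (mem_iUnion.2 ⟨⟨i, hd⟩, hi⟩)
    · obtain ⟨y, hy1, hy2⟩ := not_disjoint_iff.1 hd
      obtain ⟨z, hz, hc⟩ := H.clean i
      rw [hdb] at hy2 h2
      exact h2 (Or.inl (rel_lbox hc.1 (H.sub i hy1) hy2 (H.sub i hi.1)))

/-! ### The theorem -/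

theorem precon_nset (H : Ctx Ω v m j J t₀ D c s o R) :
    IsPreconnected (NSet v m j J t₀ D c Ω o R) := by
  have hsub : NExt v m j J t₀ D c Ω o ⊆ NSet v m j J t₀ D c Ω o R :=
    fun x hx => Or.inl (Or.inl (Or.inl (Or.inl hx)))
  refine precon_of_join (precon_ext H) hsub fun x hx => ?_
  show Reach v m j J t₀ D c Ω o R x
  rcases hx with (((hx | hx) | hx) | hx) | hx
  · exact ⟨NExt v m j J t₀ D c Ω o, hsub, precon_ext H, hx, x, hx, hx⟩
  · obtain ⟨⟨z, hz, q, hq, hxq⟩, hxD, hR⟩ := hx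
    exact reach_squ H hz hq hxq (fun i h => hxD i h.1) hR
  · obtain ⟨i, hxi, y, hyi, hR⟩ := hx
    obtain ⟨z, hz, hq⟩ := H.clean i
    have hcD : c i ⊆ D i := (H.disc i).1
    have h1 : Reach v m j J t₀ D c Ω o R y := by
      refine reach_squ H hz hq (rel_sub (H.sub i (hcD hyi))) (fun i' h => ?_) hR
      by_cases hii : i' = i
      · exact h.2 (hii ▸ hyi)
      · exact disjoint_left.1 (H.disj _ _ hii) h.1 (hcD hyi)
    exact h1.trans (S := c i) (fun w hw => Or.inl (Or.inl (Or.inr ⟨i, hw, y, hyi, hR⟩)))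
      (bdry_preconn le_rfl (H.disc i)) hxi hyi
  · obtain ⟨⟨z, hz, e, he1, he2, he3⟩, hR⟩ := hx
    exact reach_edge H hz he1 he2 he3 hR
  · obtain ⟨z, hz, a, ha, k, t, ht, rfl, hs, hk, hR⟩ := hx
    exact reach_ray H hz ha ht hs hk hR

/-- **[PATHS]** -/
theorem specPaths : SpecPaths := by
  intro Ω v m j J t₀ ι D c s o R hΩo hΩ hfin hR hm hj hz hball hcub hvert hclean hdisc hdisj hsub
    hop
  exact precon_nset ⟨hΩ, hfin, hR, hm, hball, hcub, hvert, hclean, hdisc, hdisj, hsub, hop⟩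

end

end Vale.Agent.P073.H340
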