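import Vale.Agent.P073.H340.PEc
import Vale.Agent.P073.H244.P2Sum2

/-!
# P073, [PRE-2] (`p = 2`): `SpecPre p` for `2 ≤ p < 3` from the first stage `SpecPEa p`
-/

namespace Vale.Agent.P073.H340

open MeasureTheory Set Filter Topology Metric Vale.Agent.P073.St Vale.Agent.P073.AB
open scoped ENNReal

/-- **[E5]** -/
theorem specE5 (p : ℝ) : SpecE5 p := fun _ _ _ _ _ _ _ _ D R hL => D.sumLe R hL

/-- `SpecPre p` from the first stage -/
theorem specPre_of_a {p : ℝ} (hp : 2 ≤ p) (hp3 : p < 3) (ha : SpecPEa p) : H73.SpecPre p :=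
  specPre_of_two hp hp3 (specE5 p) ha

end Vale.Agent.P073.H340
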