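import Vale.Agent.P073.H340.PEa
import Vale.Agent.P073.H340.PE2
import Vale.Agent.P073.H333.PDc
import Vale.Agent.P073.H194.MeshIn2
import Vale.Agent.P073.H244.P2Osc

/-!
# P073, [PRE-2] (`p = 2`): the second stage: centres, mesh, homeomorphism, the data `PE`
-/

namespace Vale.Agent.P073.H340

open MeasureTheory Set Filter Topology Metric Vale.Agent.P073.St Vale.Agent.P073.AB
open Vale.Agent.P073.SQ (ev)
open _root_.P073 (ConHomeo)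
open _root_.P073.Net (dyc dyo IsTile SizeFn len)
open Vale.Agent.P073.H73 (MinEdge Bix ctr WLe segP onSeg)
open Vale.Agent.P073.H194 (refine Big wH zo so co MeshOut bInt Oc cellT Bk GoodC idx sInt)
open Vale.Agent.P073.H471 (wgt)
open Vale.Agent.P073.H83 (CellsG gB grho GenB)
open Vale.Agent.P073.H234 (Touch Tch dn NetRes2)
open Vale.Agent.P073.H333 (lay gap core out base inet Mid PD0 SpecFill efin_of exists_gauge
  ev_div_le)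
open scoped ENNReal

namespace PEa

variable {p ε δ : ℝ} {CC : ℝ≥0∞} {Ω Λ : Set V} {f : V → V} {F : V → Mat}

/-- the first data -/
noncomputable def pd0 (D : PEa p ε δ CC Ω Λ f F) (m' : ℕ)
    (c : ℕ → (Fin 3 → ℤ) → V) : PD0 Ω Λ D.g where
  θ := D.θ
  M := D.M
  C := 2 * D.C₀ + D.M + 1
  κ := D.κ
  a₁ := D.a₁
  β := D.β
  k₁ := D.k₁
  k₀ := D.k₀
  n := D.n
  m₁ := D.n + D.ks
  mt := D.n + D.ks + D.kt
  m' := m'
  v := D.v
  J := D.J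
  A := D.A
  L := D.L
  c := c
  G := D.G
  H := D.H

/-- volume which is not covered -/
noncomputable def ef (D : PEa p ε δ CC Ω Λ f F) : ℝ≥0∞ :=
  ENNReal.ofReal (12 / 2 ^ D.k₁ + 24 / (D.θ * 2 ^ D.ks) + 6 / 2 ^ D.kt) * volume Ω

theorem fill (D : PEa p ε δ CC Ω Λ f F) (hS : SpecFill) :
    ∑ z ∈ D.J, volume (dyc D.v D.n z \
      ⋃ b ∈ {b | b ∈ gB D.H (D.n + D.ks + D.kt) ∧ b.1 = z}, b.cell D.A) ≤ D.ef := by
  refine (hS _ _ _ _ _ _ (D.n + D.ks + D.kt) _ _ _ _ _ _ _ D.H).trans (le_of_eq ?_)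
  unfold ef
  congr 2
  have h0 : D.θ ≠ 0 := D.H.θ0.ne'
  have e1 : 24 * 2 ^ D.n / (D.θ * 2 ^ (D.n + D.ks)) = 24 / (D.θ * 2 ^ D.ks) := by
    rw [pow_add]; field_simp
  have e2 : (6 * 2 ^ (D.n + D.ks) / 2 ^ (D.n + D.ks + D.kt) : ℝ) = 6 / 2 ^ D.kt := by
    rw [pow_add _ (D.n + D.ks)]; field_simp
  rw [e1, e2]

theorem intG (D : PEa p ε δ CC Ω Λ f F) (hΩ : IsOpen Ω) :
    ∫⁻ x in Ω \ ⋃ z ∈ D.J, dyc D.v D.n z, D.G x ≤ D.εc := by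
  refine le_trans (le_of_eq ?_) D.es2
  have hm : MeasurableSet (Ω \ ⋃ z ∈ D.J, dyc D.v D.n z) := by
    refine hΩ.measurableSet.diff ?_
    exact Finset.measurableSet_biUnion _ fun z _ => (P86.isCompact_dyc _ _ _).measurableSet
  refine setLIntegral_congr_fun_ae hm ?_
  filter_upwards [D.rp] with x hx hxS
  rw [← hx, indicator_of_mem hxS.1]

theorem kept_sup (v : V) (n k₁ k₀ : ℕ) (J : Finset (Fin 3 → ℤ)) :
    lay v n k₁ k₀ J ∪ gap v n k₁ J ⊆ kept v n k₁ k₀ J := fun _ h => Or.inl h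

/-- **the centres** -/
theorem exists_c (D : PEa p ε δ CC Ω Λ f F)
    (hΩ : St.IsBoundedDomain Ω) (hΛ : St.IsBoundedDomain Λ) (hf : St.IsHomeo Ω Λ f)
    (hS : SpecFill) (hC : CtrsE p CC) (m' : ℕ) :
    ∃ c : ℕ → (Fin 3 → ℤ) → V, Mid (D.pd0 m' c).ρ c ∧
      (∀ m zz, IsTile (D.pd0 m' c).ρ 0 m zz → ∀ z ∈ D.J, ∀ x ∈ dyc D.v D.n z,
        x ∉ boxR D.v D.n D.k₁ z → D.a₁ / 2 ^ (D.n + D.ks) ≤ ‖c m zz - D.A z x‖) ∧
      (∀ m zz, IsTile (D.pd0 m' c).ρ 0 m zz → GoodC p Ω f D.G D.v D.nn D.J D.A (c m zz)) ∧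
      ∫⁻ x in ⋃ q ∈ (D.pd0 m' c).Ib \ Pk (D.pd0 m' c), dyc D.v q.1 q.2,
        Hw2 (D.pd0 m' c) f p x ≤ CC * (D.εc + ENNReal.ofReal D.M ^ p * D.ef) ∧
      faceSum Ω D.v D.n D.k₁ D.k₀ D.J (Hw2 (D.pd0 m' c) f p) ≤
        CC * (D.cs * ENNReal.ofReal (1 / 2 ^ D.k₁)) := by
  have ha0 := D.a0
  have ha1 := D.a1
  have hT2 : 288000 * (D.M / 2 ^ (D.n + D.k₁)) ≤ 1 / 2 ^ (D.n + D.ks) := by
    have h1 := D.num.T2
    have hn : (0:ℝ) < 1 / 2 ^ D.n := by positivity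
    have h2 := mul_le_mul_of_nonneg_right h1 hn.le
    rw [pow_add, pow_add]
    refine le_trans (le_of_eq ?_) (h2.trans (le_of_eq ?_)) <;> ring
  obtain ⟨c, h1, h2, h3, h4, h5⟩ := hC D.θ D.M _ D.a₁ (D.n + D.ks) D.n D.k₁
    D.k₀ (D.n + D.ks + D.kt) m' Ω Λ D.g f D.G D.v D.nn D.J D.A D.L D.H hΩ hΛ hf D.nm
    D.loc D.fine D.aff D.m2 ha0 ha1 hT2 D.Gm D.Gfin D.gen.genB (fun k => (D.gen.ball k).2) D.pl
  refine ⟨c, h1, h2, h3, ?_, ?_⟩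
  · refine le_trans ?_ (h4.trans ?_)
    · refine lintegral_mono_set (biUnion_subset_biUnion_left ?_)
      rintro q ⟨h6, h7⟩
      exact ⟨h6, fun h8 => h7 (kept_sup _ _ _ _ _ h8)⟩
    · gcongr
      · exact D.intG hΩ.1
      · exact D.fill hS
  · refine h5.trans ?_
    gcongr
    exact D.fsum

/-- the output of the mesh -/
structure MeshPE (D : PEa p ε δ CC Ω Λ f F) (m' : ℕ) (c : ℕ → (Fin 3 → ℤ) → V) where
  nr : ℕ
  Bg : Set Idx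
  nf : Idx → ℕ
  τ : Idx → ℝ
  e : Idx → ℝ≥0∞
  τ0 : ∀ q, 0 < τ q
  mnr : m' ≤ nr
  r1 : D.M * (8 / 2 ^ nr) ≤ 3 / 2 ^ (D.n + D.ks)
  r2 : D.M * (4 / 2 ^ nr) ≤ 1 / 8 / 2 ^ m'
  r3 : D.M * (2 / 2 ^ nr) ≤ δ * (1 / 8 / 2 ^ m')
  r4 : D.M * (16 / 2 ^ nr) < 2 / 2 ^ (D.n + D.ks + D.kt)
  r5 : (16 : ℝ) / 2 ^ nr < 4 / 2 ^ (D.n + D.k₁)
  r6 : (4 : ℝ) / 2 ^ nr ≤ 1 / 2 / 2 ^ D.n
  mesh : MeshOut p δ Ω Λ f D.G D.v D.n D.k₁ D.J D.A D.L (D.pd0 m' c).Ib (Pk (D.pd0 m' c))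
    (D.pd0 m' c).Bx (zo (D.pd0 m' c).ρ (D.pd0 m' c).Bx) (so (D.pd0 m' c).ρ (D.pd0 m' c).Bx)
    (co (D.pd0 m' c).ρ (D.pd0 m' c).Bx c) e τ Bg nf nr
  esum : ∑' q : (D.pd0 m' c).Ib, e q ≤ D.εe
  oscD : ∀ s, MinSq D.v (I2 (D.pd0 m' c) Bg nf) s →
    ∀ q ∈ out Ω D.v D.n D.k₁ D.k₀ D.J \ olay D.v D.n D.k₁ D.k₀ D.J,
    squ D.v s ⊆ dyc D.v q.1 q.2 → ∀ x ∈ squ D.v s, ∀ y ∈ squ D.v s,
      ‖f x - f y‖ ≤ D.C₀ / 2 ^ (D.n + D.k₁ + D.k₀) / 4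

theorem exists_mesh (D : PEa p ε δ CC Ω Λ f F) (hp : 0 ≤ p) (hδ : 0 < δ)
    (hΛ : St.IsBoundedDomain Λ) (hf : St.IsHomeo Ω Λ f) {m' : ℕ}
    (hm' : D.n + D.ks + D.kt ≤ m') {c : ℕ → (Fin 3 → ℤ) → V} (hmid : Mid (D.pd0 m' c).ρ c)
    (hgood : ∀ m zz, IsTile (D.pd0 m' c).ρ 0 m zz → GoodC p Ω f D.G D.v D.nn D.J D.A (c m zz)) :
    Nonempty (MeshPE D m' c) := by
  have hM := D.M0
  have hC₀ := D.C00
  obtain ⟨e, he0, hes⟩ := ENNReal.exists_pos_sum_of_countable' D.num.e0 Idx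
  have hin := H194.meshIn_of2 (p := p) (k₀ := D.k₀) (mt := D.n + D.ks + D.kt)
    (m' := m') hΛ.1 hf D.nm D.Gm D.Gfin D.gen.gen (fun k => (D.gen.ball k).1) D.H D.fine D.aff
    (by omega) hm' hmid hgood
  have hsz : SizeFn Λ (D.pd0 m' c).ρ := H83.sizeFn_grho _ _ _ _ _ _ _ _ _ hΛ.1 D.H.bΛ
  have hfc : ContinuousOn f Ω := by obtain ⟨g, -, h, -⟩ := hf; exact h
  obtain ⟨th, hth⟩ := H244.exists_oscTh hfc D.v
    (ω := D.C₀ / 2 ^ (D.n + D.k₁ + D.k₀) / 4) (by positivity)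
  obtain ⟨Bg, τ, hτ, hmesh⟩ := H194.mesh_pre hin hp
    (H194.cubes_OT hsz (D.pd0 m' c).Bx) (H194.co_near hmid) hδ (e := e) fun q => (he0 q).ne'
  have k1 := ev_div_le (D.M * 8) (b := 3 / 2 ^ (D.n + D.ks)) (by positivity)
  have k2 := ev_div_le (D.M * 4) (b := 1 / 8 / 2 ^ m') (by positivity)
  have k3 := ev_div_le (D.M * 2) (b := δ * (1 / 8 / 2 ^ m')) (by positivity)
  have k4 := ev_div_le (D.M * 16) (b := 1 / 2 ^ (D.n + D.ks + D.kt)) (by positivity)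
  have k5 := ev_div_le 16 (b := 3 / 2 ^ (D.n + D.k₁)) (by positivity)
  have k6 := ev_div_le 4 (b := 1 / 2 / 2 ^ D.n) (by positivity)
  obtain ⟨N₁, hN₁⟩ := eventually_atTop.1 (k1.and (k2.and (k3.and (k4.and (k5.and
    (k6.and (eventually_ge_atTop m')))))))
  obtain ⟨nf, nr, hnr, hnf, hout⟩ := hmesh th N₁
  obtain ⟨s1, s2, s3, s4, s5, s6, s7⟩ := hN₁ nr hnr
  refine ⟨⟨nr, Bg, nf, τ, e, hτ, s7, ?_, ?_, ?_, ?_, ?_, s6, hout, ?_,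
    H244.oscD_of D.fine hout hth hnf⟩⟩
  · rw [← mul_div_assoc]; exact s1
  · rw [← mul_div_assoc]; exact s2
  · rw [← mul_div_assoc]; exact s3
  · rw [← mul_div_assoc]
    refine s4.trans_lt ?_
    gcongr
    norm_num
  · refine s5.trans_lt ?_
    gcongr
    norm_num
  · refine le_trans ?_ hes.le
    exact ENNReal.tsum_comp_le_tsum_of_injective Subtype.val_injective e

/-- the output of the net -/
structure NetPE (D : PEa p ε δ CC Ω Λ f F) (m' : ℕ) (c : ℕ → (Fin 3 → ℤ) → V)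
    (Bg : Set Idx) (nf : Idx → ℕ) (τ : Idx → ℝ) where
  h : ConHomeo Ω Λ
  σ : V → ℝ
  δe : Idx × Fin 3 → ℝ
  στ : ∀ q ∈ (D.pd0 m' c).Ib \ Pk (D.pd0 m' c), ∀ x ∈ dyc D.v q.1 q.2, σ x ≤ τ q
  δ0 : ∀ e, 0 < δe e
  δ1 : ∀ e, δe e ≤ 1 / 2 ^ e.1.1
  δ2 : ∀ e, 2 / D.a₁ * wst2 (D.pd0 m' c) f e * (2 * δe e) ≤ D.β / 2 ^ e.1.1
  net : NetRes2 D.v (In2 (D.pd0 m' c) Bg nf) D.n D.k₁ D.k₀ D.J D.C₀ ε
    (D.C₀ / 2 ^ (D.n + D.k₁ + D.k₀) / 2) D.A f F Ω σ δe h.toFun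

theorem exists_net (D : PEa p ε δ CC Ω Λ f F) (hR : SpecRef2) (hp : 1 ≤ p)
    (hΩ : St.IsBoundedDomain Ω)
    {m' : ℕ} {c : ℕ → (Fin 3 → ℤ) → V} (R : MeshPE D m' c) :
    Nonempty (NetPE D m' c R.Bg R.nf R.τ) := by
  have hβ := D.num.β0
  have hC₀ := D.C00
  have ha := D.a0
  have href : Ref2 Ω D.v D.n D.k₁ D.k₀ D.J R.Bg R.nf := ⟨D.fine, R.mesh.big, R.mesh.lt⟩
  have hout := hR Ω D.v D.n D.k₁ D.k₀ D.J R.Bg R.nf hΩ.1 href
  have hpartb : Part Ω D.v (D.pd0 m' c).Ib := D.fine.part_base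
  obtain ⟨σ, hσc, hσ0, -, hστ⟩ := exists_gauge hΩ.1
    (J := (D.pd0 m' c).Ib \ Pk (D.pd0 m' c))
    (fun K hK hKc => (hpartb.fin K hK hKc).subset fun q hq => ⟨hq.1.1, hq.2⟩)
    (σ := fun _ => 1) continuousOn_const (fun _ _ => one_pos) (a := R.τ) fun q _ => R.τ0 q
  set w : Idx × Fin 3 → ℝ := fun e => 2 / D.a₁ * wst2 (D.pd0 m' c) f e with hw
  have hw0 : ∀ e, 0 ≤ w e := fun e => mul_nonneg (by positivity) ENNReal.toReal_nonneg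
  set δe : Idx × Fin 3 → ℝ := fun e =>
    min (1 / 2 ^ e.1.1) (D.β / 2 ^ e.1.1 / (2 * (w e + 1))) with hδe
  have hδ0 : ∀ e, 0 < δe e := fun e => by
    have := hw0 e
    exact lt_min (by positivity) (by positivity)
  obtain ⟨h, hnet⟩ := D.net (In2 (D.pd0 m' c) R.Bg R.nf) hout.part_in hout.tch_in
    (by
      rintro e ⟨q, hq, he⟩
      exact efin_of hp D.gen ((Gr.edge_subset_dyc he).trans (hout.part_in.sub q hq)))
    σ δe (D.C₀ / 2 ^ (D.n + D.k₁ + D.k₀) / 2) hσc hσ0 hδ0 (by positivity)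
  refine ⟨⟨h, σ, δe, ?_, hδ0, fun e => min_le_left _ _, fun e => ?_, hnet⟩⟩
  · intro q hq x hx
    exact hστ q hq x (hpartb.sub q hq.1 hx) hx
  · have h1 := hw0 e
    have h2 : δe e ≤ D.β / 2 ^ e.1.1 / (2 * (w e + 1)) := min_le_right _ _
    calc w e * (2 * δe e) ≤ w e * (2 * (D.β / 2 ^ e.1.1 / (2 * (w e + 1)))) := by gcongr
      _ = w e / (w e + 1) * (D.β / 2 ^ e.1.1) := by field_simp
      _ ≤ 1 * (D.β / 2 ^ e.1.1) := by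
          gcongr
          rw [div_le_one (by positivity)]
          linarith
      _ = _ := one_mul _

theorem bud2 (D : PEa p ε δ CC Ω Λ f F) (hε : 0 < ε) :
    3 * (D.εc + 2 ^ (p - 1) * (D.εc + ENNReal.ofReal D.M ^ p * D.ef)) ≤ ENNReal.ofReal ε := by
  have h1 := D.c2
  have h2 := D.num.c4
  calc 3 * (D.εc + 2 ^ (p - 1) * (D.εc + ENNReal.ofReal D.M ^ p * D.ef))
      = 3 * (D.εc + 2 ^ (p - 1) * D.εc) +
        3 * (2 ^ (p - 1) * (ENNReal.ofReal D.M ^ p * D.ef)) := by ring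
    _ ≤ ENNReal.ofReal (ε / 2) + ENNReal.ofReal (ε / 2) := add_le_add h1 h2
    _ = ENNReal.ofReal ε := by
        rw [← ENNReal.ofReal_add (by positivity) (by positivity)]
        congr 1; ring

theorem bud3 (D : PEa p ε δ CC Ω Λ f F) :
    2 ^ (p - 1) * (cK D.a₁ ^ p * (36 * (CC * (D.εc + ENNReal.ofReal D.M ^ p * D.ef)) + D.εe) +
        24 * ENNReal.ofReal D.β ^ p * volume Ω) +
    (2 ^ (p - 1) * (cK D.a₁ ^ p * (36 * (CC * (D.cs * ENNReal.ofReal (1 / 2 ^ D.k₁)) +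
          ENNReal.ofReal (1 + 4 * (2 / D.a₁)) ^ p *
          (ENNReal.ofReal D.M ^ p * (6 * ENNReal.ofReal (12 / 2 ^ D.k₁) * volume Ω))) + D.εe) +
        24 * ENNReal.ofReal D.β ^ p * volume Ω) +
      24 * (ENNReal.ofReal (16 * (2 / D.a₁ * (2178 * (1 + 4 * (2 / D.a₁))))) ^ p * (2 ^ (p - 1) *
        (ENNReal.ofReal (D.M ^ p + 1) +
          ENNReal.ofReal (D.M + (2 * D.C₀ + D.M + 1) + 1) ^ p))) *
        (ENNReal.ofReal (24 / 2 ^ D.k₁) * volume Ω)) ≤ ENNReal.ofReal ε := by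
  have h3 := D.c3
  have h5 : 2 ^ (p - 1) * (cK D.a₁ ^ p * (36 * (CC * (ENNReal.ofReal D.M ^ p * D.ef)))) ≤
    ENNReal.ofReal (ε / 8) := D.num.c5
  have h6 := D.num.c6
  have h7 := D.num.c7
  have h8 := D.num.c8
  have h9 := D.num.c9
  have e8 : ENNReal.ofReal ε = 8 * ENNReal.ofReal (ε / 8) := by
    rw [show (8:ℝ≥0∞) = ENNReal.ofReal 8 by simp, ← ENNReal.ofReal_mul (by norm_num)]
    congr 1; ring
  rw [e8]
  generalize ENNReal.ofReal (ε / 8) = x at *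
  generalize (24 * (ENNReal.ofReal (16 * (2 / D.a₁ * (2178 * (1 + 4 * (2 / D.a₁))))) ^ p *
        (2 ^ (p - 1) * (ENNReal.ofReal (D.M ^ p + 1) +
          ENNReal.ofReal (D.M + (2 * D.C₀ + D.M + 1) + 1) ^ p))) *
        (ENNReal.ofReal (24 / 2 ^ D.k₁) * volume Ω)) = T9 at *
  generalize (CC * (D.cs * ENNReal.ofReal (1 / 2 ^ D.k₁)) +
          ENNReal.ofReal (1 + 4 * (2 / D.a₁)) ^ p *
          (ENNReal.ofReal D.M ^ p * (6 * ENNReal.ofReal (12 / 2 ^ D.k₁) * volume Ω))) = T8 at *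
  generalize ENNReal.ofReal D.M ^ p * D.ef = T5 at *
  generalize 24 * ENNReal.ofReal D.β ^ p * volume Ω = T7 at *
  generalize D.εc = ec at *
  generalize D.εe = ee at *
  generalize (2:ℝ≥0∞) ^ (p - 1) = b at *
  generalize cK D.a₁ ^ p = d at *
  calc b * (d * (36 * (CC * (ec + T5)) + ee) + T7) + (b * (d * (36 * T8 + ee) + T7) + T9)
      = b * (d * (36 * (CC * ec))) + b * (d * (36 * (CC * T5))) + b * (d * ee) + b * T7 +
        (b * (d * (36 * T8)) + b * (d * ee) + b * T7 + T9) := by ring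
    _ ≤ x + x + x + x + (x + x + x + x) := by gcongr
    _ = 8 * x := by ring

end PEa

/-- **[E9-B]** the second stage -/
theorem exists_pe_of {p ε δ : ℝ} {CC : ℝ≥0∞} {Ω Λ : Set V} {f : V → V} {F : V → Mat}
    (hC : CtrsE p CC) (hS : SpecFill) (hR : SpecRef2) (hp : 2 ≤ p)
    (hp3 : p < 3) (hΩ : St.IsBoundedDomain Ω)
    (hΛ : St.IsBoundedDomain Λ) (hf : St.IsHomeo Ω Λ f) (hF : St.IsSobolev p Ω f F)
    (hε : 0 < ε) (hδ : 0 < δ) (D : PEa p ε δ CC Ω Λ f F)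
    (Φ : ℕ → Finset (Fin 3 → ℤ) → ((Fin 3 → ℤ) → V → V) → ℝ) :
    Nonempty (PE p ε δ Φ Ω Λ D.g f F) := by
  -- the first layer of tiles
  obtain ⟨m', hm'1, hm'2⟩ := ((ev_div_le (Φ D.N D.J D.A * ((gB D.H (D.n + D.ks + D.kt)).card *
    (6 * (9 / D.θ * (2 / 2 ^ D.n) ^ 2)))) hε).and
    (eventually_ge_atTop (D.n + D.ks + D.kt))).exists
  obtain ⟨c, hmid, hfar, hgood, hint, hface⟩ := D.exists_c hΩ hΛ hf hS hC m'
  obtain ⟨R⟩ := D.exists_mesh (by linarith) hδ hΛ hf hm'2 hmid hgood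
  obtain ⟨T⟩ := D.exists_net hR (by linarith) hΩ R
  have hC₀ := D.C00
  have hM := D.M0
  exact ⟨{
    toPD0 := D.pd0 m' c
    bΩ := hΩ, bΛ := hΛ, hf := hf, hF := hF, hp := hp, hp3 := hp3, hε := hε, hδ := hδ
    M0 := D.M0
    C0 := by
      show 0 < 2 * D.C₀ + D.M + 1
      positivity
    C₀ := D.C₀
    C00 := D.C00
    CC₀ := le_rfl
    a0 := D.a0
    a1 := D.a1.trans (by norm_num)
    β0 := D.num.β0
    m2 := D.m2
    nm := Nat.le_add_right _ _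
    mmt := Nat.add_le_add_left D.num.kt2 _
    mtm := hm'2
    nr := R.nr
    mnr := R.mnr
    η1 := by
      have h1 := D.num.η1
      have hn : (0:ℝ) < 1 / 2 ^ D.n := by positivity
      have h2 := mul_le_mul_of_nonneg_right h1 hn.le
      show (2 * D.C₀ + D.M + 1) / 2 ^ (D.n + D.k₁) ≤ D.a₁ / 2 ^ (D.n + D.ks) / 2
      rw [pow_add, pow_add]
      refine le_trans (le_of_eq ?_) (h2.trans (le_of_eq ?_)) <;> ring
    η2 := by
      have h1 := D.num.η2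
      have hn : (0:ℝ) < 1 / 2 ^ D.n := by positivity
      have h2 := mul_le_mul_of_nonneg_right h1 hn.le
      show 2 * ((2 * D.C₀ + D.M + 1) / 2 ^ (D.n + D.k₁)) + D.M * (1 / 2 ^ (D.n + D.k₁)) ≤
        δ * (D.a₁ / 2 ^ (D.n + D.ks) / 2)
      rw [pow_add, pow_add]
      refine le_trans (le_of_eq ?_) (h2.trans (le_of_eq ?_)) <;> ring
    η4 := D.η4
    r1 := R.r1, r2 := R.r2, r3 := R.r3, r4 := R.r4, r5 := R.r5, r6 := R.r6
    aff := D.aff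
    fine := D.fine
    N := D.N
    dyL := D.dyL
    dyA := D.dyA
    εc := D.εc
    es1 := D.es1
    es2 := D.es2
    εf := D.ef
    fill := D.fill hS
    Gm := D.Gm
    Gfin := D.Gfin
    rat := D.gen.rat
    efin := fun e he => efin_of (by linarith) D.gen he
    rep := D.gen.rep
    own := D.own
    fown := D.fown
    mid := hmid
    far := hfar
    Bg := R.Bg
    nf := R.nf
    τ := R.τ
    τ0 := R.τ0
    e := R.e
    mesh := R.mesh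
    εe := D.εe
    esum := R.esum
    εI := CC * (D.εc + ENNReal.ofReal D.M ^ p * D.ef)
    int := hint
    εS := CC * (D.cs * ENNReal.ofReal (1 / 2 ^ D.k₁))
    intS := hface
    ω := D.C₀ / 2 ^ (D.n + D.k₁ + D.k₀) / 4
    τs := D.C₀ / 2 ^ (D.n + D.k₁ + D.k₀) / 2
    ω0 := by positivity
    ωs := by
      show 2 * (D.C₀ / 2 ^ (D.n + D.k₁ + D.k₀) / 4) + D.C₀ / 2 ^ (D.n + D.k₁ + D.k₀) / 2 ≤
        D.C₀ / 2 ^ (D.n + D.k₁ + D.k₀)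
      linarith
    oscD := R.oscD
    h := T.h
    σ := T.σ
    δe := T.δe
    στ := T.στ
    δ0 := T.δ0
    δ1 := T.δ1
    δ2 := T.δ2
    net := T.net
    K := D.K
    Ksub := D.Ksub
    Kc := D.Kc
    Kvol := D.Kvol
    osc := D.osc
    b1 := D.c1
    b2 := D.bud2 hε
    b3 := D.bud3
    b4 := by
      refine le_trans (le_of_eq ?_) hm'1
      show Φ D.N D.J D.A * ((gB D.H (D.n + D.ks + D.kt)).card *
        (6 * (9 / D.θ * (2 / 2 ^ D.n) ^ 2 * (1 / 2 ^ m')))) = _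
      ring }⟩

end Vale.Agent.P073.H340
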