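import Vale.Agent.P073.H79.PEfinal
import Vale.Agent.P073.H340.PEb
import Vale.Agent.P073.H622.SpecFill
import Vale.Agent.P073.H193.Kept2
import Vale.Agent.P073.H193.PE3
import Vale.Agent.P073.H989.E7

/-!
# P073, [PRE-2] (`p = 2`): the proved leaves plugged into the skeleton

`specPEb` is [E9-B]; `specPre_of_two` gives `SpecPre p` for `2 ≤ p < 3` from the first stage
`SpecPEa p` and the sum `SpecE5 p`.
-/

namespace Vale.Agent.P073.H340

open MeasureTheory Set Filter Topology Metric Vale.Agent.P073.St Vale.Agent.P073.AB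
open scoped ENNReal

/-- **[E9-B]** the second stage -/
theorem specPEb {p : ℝ} (hp : 2 ≤ p) (hp3 : p < 3) : SpecPEb p := by
  intro ε δ CC Φ Ω Λ f F hε hδ _ hC hΩ hΛ hf hF D
  exact ⟨D.g, exists_pe_of hC H622.specFill H193.specRef2 hp hp3 hΩ hΛ hf hF hε hδ D Φ⟩

/-- **[E3]** -/
theorem specE3 (p : ℝ) : SpecE3 p :=
  fun _ _ _ _ _ _ _ _ D R hK hE => ⟨D.cond R hK, D.wle R hK hE⟩

/-- `SpecPre p` from the first stage and the sum -/
theorem specPre_of_two {p : ℝ} (hp : 2 ≤ p) (hp3 : p < 3) (h5 : SpecE5 p) (ha : SpecPEa p) :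
    H73.SpecPre p :=
  specPre_of_leaves H193.specRef2 (specE3 p) h5 (H989.specCtrs2 (by linarith) hp3) ha
    (specPEb hp hp3)

end Vale.Agent.P073.H340
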