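import Vale.Agent.P073.H304.K3C

/-!
# P073, H340: `K3C` from its two halves

`K3S`: on every mesh, `OutB` and the sharp clauses. `K3O`: one block of tiles of the same size
(`J = J₀`), no sharp faces, `OutB` and the oscillation. In both the shell parameter `1 / 2 ^ j` and
the oscillation `δ` are arbitrary small numbers, so the two halves can be merged.
-/

open Set Metric Topology
open scoped ENNReal

namespace Vale.Agent.P073.H340.TwoW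

open Vale.Agent.P073
open Vale.Agent.P073.St (V)
open Vale.Agent.P073.H73 (Mesh)
open Vale.Agent.P073.H304 (In OutB OscOut Cst)
open _root_.P073 (ConHomeo)
open _root_.P073.Net (SizeFn)

/-- **[K3-TOP]** on every mesh: `OutB` and the sharp clauses -/
def K3S (p : ℝ) : Prop :=
  ∃ D ≥ 1, ∀ μ > 0, ∃ D' ≥ D, ∃ r > 0, ∀ c₀ : ℝ, 0 < c₀ → c₀ ≤ 1 / 64 →
    ∃ j₀ : ℕ, ∀ j ≥ j₀, ∃ δ₀ > 0, ∀ δ : ℝ, 0 < δ → δ ≤ δ₀ →
    ∀ (Ω Λ : Set V), St.IsBoundedDomain Ω → St.IsBoundedDomain Λ →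
    ∀ (v w : V) (ρ : V → ℝ), SizeFn Λ ρ →
    ∀ (M : Mesh Ω) (h : ConHomeo Ω Λ) (J₀ J : Set (ℕ × (Fin 3 → ℤ))) (P Z : Set M.ι),
    In (Λ := Λ) (1 / 2 ^ j) δ c₀ v w ρ M h.toFun J₀ J P Z →
    ∀ (Y : Set M.κ) (ε : M.κ → ℝ), (∀ k, 0 < ε k) →
    ∃ g : ConHomeo Ω Λ, OutB p D D' (1 / 2 ^ j) c₀ c₀ w ρ M h.toFun J₀ J P Z Y ε g ∧
      H212.SharpOut3 p D c₀ δ μ r w ρ M h.toFun J₀ Y ε g

/-- **[K3-TOP]** for one block of tiles of the same size: `OutB` and the oscillation -/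
def K3O (p : ℝ) : Prop :=
  ∃ D ≥ 1, ∀ c₀ : ℝ, 0 < c₀ → c₀ ≤ 1 / 64 →
    ∃ j₀ : ℕ, ∀ j ≥ j₀, ∃ δ₀ > 0, ∀ δ : ℝ, 0 < δ → δ ≤ δ₀ →
    ∀ (Ω Λ : Set V), St.IsBoundedDomain Ω → St.IsBoundedDomain Λ →
    ∀ (v w : V) (ρ : V → ℝ), SizeFn Λ ρ →
    ∀ (M : Mesh Ω) (h : ConHomeo Ω Λ) (J₀ J : Set (ℕ × (Fin 3 → ℤ))) (P Z : Set M.ι),
    In (Λ := Λ) (1 / 2 ^ j) δ c₀ v w ρ M h.toFun J₀ J P Z →
    J = J₀ → (∀ t ∈ J₀, ∀ t' ∈ J₀, t'.1 = t.1) →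
    ∀ ε : M.κ → ℝ, (∀ k, 0 < ε k) →
    ∃ g : ConHomeo Ω Λ, OutB p D D (1 / 2 ^ j) c₀ c₀ w ρ M h.toFun J₀ J P Z ∅ ε g ∧
      OscOut D D c₀ w M h.toFun J₀ P Z ∅ g.toFun

section mono

variable {Ω Λ : Set V} {p D D' D₁ D₁' η c₀ m m' δ μ r : ℝ} {w : V} {ρ : V → ℝ} {M : Mesh Ω}
  {h : V → V} {J₀ J : Set (ℕ × (Fin 3 → ℤ))} {P Z : Set M.ι} {Y : Set M.κ} {ε : M.κ → ℝ}
  {g : ConHomeo Ω Λ}

theorem cst_mono (h1 : D ≤ D₁) (h2 : D' ≤ D₁') {S : Set V} {C : ℝ}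
    (H : Cst M Y D₁ D₁' S C) : Cst M Y D D' S C := by
  rcases H with H | ⟨H, H'⟩
  · exact Or.inl (h2.trans H)
  · exact Or.inr ⟨h1.trans H, H'⟩

/-- `OutB` is monotone in the constants -/
theorem outB_mono (H : OutB p D D' η c₀ m w ρ M h J₀ J P Z Y ε g) (h1 : D ≤ D₁)
    (h2 : D' ≤ D₁') : OutB p D₁ D₁' η c₀ m' w ρ M h J₀ J P Z Y ε g where
  off := H.off
  close := fun x hx t ht hN => (H.close x hx t ht hN).trans
    (div_le_div_of_nonneg_right h1 (by positivity))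
  prot := fun i hi x hx y hy => (H.prot i hi x hx y hy).trans
    (mul_le_mul_of_nonneg_right h1 (norm_nonneg _))
  lip := fun hJ i hi K hK hh C hC => H.lip hJ i hi K hK hh C (cst_mono h1 h2 hC)
  edge := fun k e he hk => (H.edge k e he hk).trans
    (add_le_add (mul_le_mul_left (ENNReal.ofReal_le_ofReal h1) _) le_rfl)
  elip := fun k e he hk hN C hC => H.elip k e he hk hN C (cst_mono h1 h2 hC)
  flip := fun k hk C hC => H.flip k hk C (cst_mono h1 h2 hC)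
  face := fun k hk C hC => H.face k hk C (cst_mono h1 h2 hC)
  drawn := fun i hi C hC => H.drawn i hi C (cst_mono h1 h2 hC)

/-- `SharpOut3` is monotone in the constant -/
theorem sharpOut3_mono (H : H212.SharpOut3 p D c₀ δ μ r w ρ M h J₀ Y ε g) (h1 : D ≤ D₁) :
    H212.SharpOut3 p D₁ c₀ δ μ r w ρ M h J₀ Y ε g where
  tv := H.tv
  aux := by
    obtain ⟨q, hq, hf⟩ := H.aux
    exact ⟨q, ⟨hq.off, fun x hx t ht hN => (hq.close x hx t ht hN).trans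
      (div_le_div_of_nonneg_right h1 (by positivity)), fun k e he hk =>
      (hq.edge k e he hk).trans (add_le_add (mul_le_mul_left (ENNReal.ofReal_le_ofReal h1) _)
        le_rfl), hq.tv⟩, hf⟩

/-- `OscOut` is monotone in the constants -/
theorem oscOut_mono {g : V → V} (H : OscOut D D' c₀ w M h J₀ P Z Y g) (h1 : D ≤ D₁)
    (h2 : D' ≤ D₁') : OscOut D₁ D₁' c₀ w M h J₀ P Z Y g :=
  fun i hi C hC => H i hi C (cst_mono h1 h2 hC)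

end mono

theorem exists_pow_lt {c : ℝ} (hc : 0 < c) : ∃ j : ℕ, ∀ i ≥ j, (1 : ℝ) / 2 ^ i < c := by
  obtain ⟨j, hj⟩ := exists_pow_lt_of_lt_one hc (by norm_num : (1 / 2 : ℝ) < 1)
  refine ⟨j, fun i hi => ?_⟩
  rw [one_div_pow] at hj
  refine lt_of_le_of_lt ?_ hj
  exact one_div_le_one_div_of_le (by positivity) (pow_le_pow_right₀ (by norm_num) hi)

/-- **`K3C` from its two halves** -/
theorem k3c_of_two {p : ℝ} (hS : K3S p) (hO : K3O p) : H304.K3C p := by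
  obtain ⟨D₁, hD₁, hS⟩ := hS
  obtain ⟨D₂, hD₂, hO⟩ := hO
  refine ⟨max D₁ D₂, lt_of_lt_of_le one_pos (hD₁.le.trans (le_max_left _ _)), fun μ hμ => ?_⟩
  obtain ⟨D', hD', r, hr, hS⟩ := hS μ hμ
  refine ⟨max D' (max D₁ D₂), le_max_right _ _, r, hr, fun c₀ hc hc' => ?_⟩
  obtain ⟨j₁, hS⟩ := hS c₀ hc hc'
  obtain ⟨j₂, hO⟩ := hO c₀ hc hc'
  obtain ⟨j₃, hj₃⟩ := exists_pow_lt hc
  set j := max j₁ (max j₂ j₃) with hj
  obtain ⟨δ₁, hδ₁, hS⟩ := hS j (le_max_left _ _)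
  obtain ⟨δ₂, hδ₂, hO⟩ := hO j ((le_max_left _ _).trans (le_max_right _ _))
  refine ⟨j, hj₃ j ((le_max_right _ _).trans (le_max_right _ _)), min δ₁ δ₂, lt_min hδ₁ hδ₂, c₀,
    hc, le_rfl, ?_⟩
  intro Ω Λ hΩ hΛ v w ρ hρ M h J₀ J P Z hIn Y ε hε b
  have hm : (0 : ℝ) < min δ₁ δ₂ := lt_min hδ₁ hδ₂
  obtain ⟨g, h1, h2⟩ := hS (min δ₁ δ₂) hm (min_le_left _ _) Ω Λ hΩ hΛ v w ρ hρ M h J₀ J P Z hIn
    Y ε hε
  have h1' := outB_mono (m' := c₀) h1 (le_max_left D₁ D₂) (le_max_left D' (max D₁ D₂))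
  cases b with
  | true => exact ⟨g, h1', fun _ => sharpOut3_mono h2 (le_max_left _ _), fun h => by simp at h⟩
  | false =>
    by_cases hc : J = J₀ ∧ (∀ t ∈ J₀, ∀ t' ∈ J₀, t'.1 = t.1) ∧ Y = ∅
    · obtain ⟨hJ, hg, rfl⟩ := hc
      obtain ⟨g', h3, h4⟩ := hO (min δ₁ δ₂) hm (min_le_right _ _) Ω Λ hΩ hΛ v w ρ hρ M h J₀ J P Z
        hIn hJ hg ε hε
      have h5 : D₂ ≤ max D' (max D₁ D₂) := (le_max_right _ _).trans (le_max_right _ _)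
      exact ⟨g', outB_mono h3 (le_max_right _ _) h5, fun h => by simp at h, fun _ _ _ _ =>
        oscOut_mono h4 (le_max_right _ _) h5⟩
    · exact ⟨g, h1', fun h => by simp at h, fun _ ha hb hd => absurd ⟨ha, hb, hd⟩ hc⟩

end Vale.Agent.P073.H340.TwoW
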