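import Vale.Agent.P073.H880.TopF
import Vale.Agent.P073.H31.SK11
import Vale.Agent.P073.H726.TopR2
import Vale.Agent.P073.H851.RowF
import Vale.Agent.P073.H340.TwoW

/-!
# P073, H340: **the rows of the first part**, assembled

`rowsS_of`: `RowsS` from the row of the edges and the row of the drawn cells and of the Lipschitz
constants; the rows of the numbers (`row_rowNum`), of the drawn faces (`row_giv`, `row_face`) and
of the sharp clauses (`row_sharp`) are inserted.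
-/

open Set Metric Topology Filter MeasureTheory
open scoped ENNReal

set_option linter.unusedSectionVars false

namespace Vale.Agent.P073.Top880

open _root_.P073 _root_.P073.Net _root_.P073.PA691 _root_.P073.H236 _root_.P073.H579
open Vale.Agent.P073.St (V)
open Vale.Agent.P073.H471 Vale.Agent.P073.H267
open Vale.Agent.P073.H73 (Mesh onSeg)
open Vale.Agent.P073.H193 (Edges edges)
open Vale.Agent.P073.H926
open Vale.Agent.P073.H238.K3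
open Vale.Agent.P073.H267.K3
open Vale.Agent.P073.H31.K3 (FNum1)
open Vale.Agent.P073.H233 (Tol)

/-- the tolerance of the faces which all rows use -/
noncomputable abbrev tau1 {Ω : Set V} (M : Mesh Ω) (b : (edges M).ε → ℝ) : M.κ → ℝ :=
  tauF (fun _ => 1) b

/-- **the row of the edges**, for the map and for the auxiliary map -/
def REdge (C₀ : ℝ) : Prop :=
  ∃ d : ℝ, ∀ D₀ : ℝ, d ≤ D₀ →
  ∀ {c₀ n δ : ℝ} {j : ℕ} {Ω Λ : Set V} {v w : V} {ρ : V → ℝ} {M : Mesh Ω} {h : ConHomeo Ω Λ}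
    {J₀ J : Set (ℕ × (Fin 3 → ℤ))} {P Z : Set M.ι} {K : BoxCx Λ w}
    (D : KIn3 c₀ n j δ v w ρ M h J₀ J P Z) (C : Cells ρ w K) (Ys : Set M.κ) {p μ r ν : ℝ}
    {sc : Sharp}, Cn p μ r sc ν n δ →
    ∀ {ε : M.κ → ℝ} {om εL : (edges M).ε → ℝ} {lam osc : M.ι → ℝ},
    (∀ k, 0 < ε k) → Tol M h.toFun ε om εL lam osc →
    RowP D C C₀ (n / 128) Ys sc fun Y₅ =>
      EdgeF D C D₀ om Y₅.f.toFun ∧ EdgeF D C D₀ om Y₅.fq.toFun

/-- **the row of the drawn cells and of the Lipschitz constants** -/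
def RCell (p C₀ : ℝ) : Prop :=
  ∃ A : ℝ, 0 ≤ A ∧ ∃ d : ℝ, ∀ D₀ : ℝ, d ≤ D₀ → ∃ c₁ : ℝ, ∀ C₁ : ℝ, c₁ ≤ C₁ →
  ∀ {μ r ν : ℝ} {sc : Sharp}, FNum1 p μ r sc ν → ∃ c₁' : ℝ, ∀ C₁' : ℝ, c₁' ≤ C₁' → C₁ ≤ C₁' →
  ∀ {c₀ n δ : ℝ} {j : ℕ} {Ω Λ : Set V} {v w : V} {ρ : V → ℝ} {M : Mesh Ω} {h : ConHomeo Ω Λ}
    {J₀ J : Set (ℕ × (Fin 3 → ℤ))} {P Z : Set M.ι} {K : BoxCx Λ w}
    (D : KIn3 c₀ n j δ v w ρ M h J₀ J P Z) (C : Cells ρ w K) (Ys : Set M.κ),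
    Cn p μ r sc ν n δ → ∀ {ε : M.κ → ℝ} {om εL : (edges M).ε → ℝ} {lam osc : M.ι → ℝ},
    (∀ k, 0 < ε k) → Tol M h.toFun ε om εL lam osc →
    RowP D C C₀ (n / 128) Ys sc fun {X _ _ _} Y₅ =>
      (∃ t4 t5, RowNum Y₅ (tau1 M X.bn) ε t4 t5) → GivF (tau1 M X.bn) Y₅ →
        LipF C₁ C₁' Y₅ ∧ CellF p A D₀ C₁ C₁' ε εL lam Y₅

/-- **the rows of the first part** -/
theorem rowsS_of {p C₀ : ℝ} (hC₀ : 1 ≤ C₀) (HE : REdge C₀) (HC : RCell p C₀) : RowsS p C₀ := by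
  obtain ⟨A, hA, d3, HC⟩ := HC
  obtain ⟨d1, HE⟩ := HE
  set D₀ : ℝ := max 1 (max d1 d3) with hD
  have hD1 : 1 ≤ D₀ := le_max_left _ _
  have e1 : d1 ≤ D₀ := (le_max_left _ _).trans (le_max_right _ _)
  have e3 : d3 ≤ D₀ := (le_max_right _ _).trans (le_max_right _ _)
  obtain ⟨a2, HC⟩ := HC D₀ e3
  refine ⟨A, hA, D₀, hD1, max (max (936 * (8 * (500 * C₀ + 700) + 32 * C₀) + 1) (600 * C₀ + 1)) a2,
    fun C₁ hC₁ μ r ν sc N1 => ?_⟩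
  have f1 : 936 * (8 * (500 * C₀ + 700) + 32 * C₀) + 1 ≤ C₁ :=
    ((le_max_left _ _).trans (le_max_left _ _)).trans hC₁
  have f2 : 600 * C₀ + 1 ≤ C₁ := ((le_max_right _ _).trans (le_max_left _ _)).trans hC₁
  obtain ⟨b2, HC⟩ := HC C₁ ((le_max_right _ _).trans hC₁) N1
  refine ⟨max (6 * FW31.DK sc.K * (8 * (500 * C₀ + 700) + 32 * C₀) + 1) b2, fun C₁' hC₁' hCC => ?_⟩
  intro c₀ n δ j Ω Λ v w ρ M h J₀ J P Z K D C Ys Hn ε om εL lam osc hε T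
  have hn := D.pos
  have HQ : RowP D C C₀ (n / 128) Ys sc fun {_ _ Y₃ _} _ => Y₃.q = qC C₀ :=
    ⟨Slots.one, fun Y₅ h5 => h5.q⟩
  have HN : RowP D C C₀ (n / 128) Ys sc fun {X _ _ _} Y₅ =>
    ∃ t4 t5, RowNum Y₅ (tau1 M X.bn) ε t4 t5 := row_rowNum D C hC₀ hε fun _ => one_pos
  have HG : RowP D C C₀ (n / 128) Ys sc fun {X _ _ _} Y₅ => GivF (tau1 M X.bn) Y₅ :=
    row_giv D C fun _ => one_pos
  have HF : RowP D C C₀ (n / 128) Ys sc fun Y₅ => FaceF D₀ C₁ C₁' ε Y₅ :=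
    row_face D C hε hD1 f1 f2 ((le_max_left _ _).trans hC₁') hCC
  have HS := row_sharp D C (μT := n / 128) (Ys := Ys) hC₀ N1 Hn.nν (by positivity) le_rfl hε T hD1
  refine ((HN.and HG).and (((HE D₀ e1 D C Ys Hn hε T).and HF).and
    (((HC C₁' ((le_max_right _ _).trans hC₁') hCC D C Ys Hn hε T).and HS).and HQ))).mono ?_
  rintro X Y₂ Y₃ Y₄ Y₅ ⟨⟨k1, k2⟩, ⟨⟨k3, k4⟩, k5⟩, ⟨k6, k7⟩, k8⟩
  obtain ⟨k9, k10⟩ := k6 k1 k2
  obtain ⟨t4, t5, k0⟩ := k1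
  refine ⟨⟨_, t4, t5, k0, k2⟩, k8, k9, k3, k5, k10, fun D₁ Dq h1 h2 h3 =>
    k7 k4 D₁ Dq ((max_le_max le_rfl ?_).trans h1) h2 h3⟩
  linarith

end Vale.Agent.P073.Top880
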