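import Vale.Agent.P073.H399.RowC
import Vale.Agent.P073.H581.EdRow3
import Vale.Agent.P073.H227.RowsO2
import Vale.Agent.P073.H726.FinalR

/-!
# P073: all exponents `1 ≤ p`, from the local theorem of the edges and the oscillation row
-/

namespace Vale.Agent.P073.H340

open Vale.Agent.P073.H608 (Full)
open Vale.Agent.P073.Top880 Vale.Agent.P073.H227

/-- **all exponents**, from the local theorem of the edges and the row of the faces which are not
listed -/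
theorem full_of_loc_sup (HL : ∀ C₀ : ℝ, 1 ≤ C₀ → ∃ A A' c : ℝ, 0 ≤ A ∧ 0 ≤ A' ∧ 0 ≤ c ∧
      LocAll C₀ A A' c)
    (HS : ∀ C₀ : ℝ, 1 ≤ C₀ → SupRow C₀) {p : ℝ} (hp : 1 ≤ p) : Full p := by
  refine H726.full_of_rows (fun q hq C₀ hC₀ => ?_)
    (fun C₀ hC₀ => rowsO_of_sup hC₀ (HS C₀ hC₀)) hp
  obtain ⟨A, A', c, h1, h2, h3, h4⟩ := HL C₀ hC₀
  exact rowsS_of hC₀ (rEdge_of hC₀ h1 h2 h3 h4) (rcell (by linarith) hC₀)

end Vale.Agent.P073.H340
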