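import Vale.Agent.P073.H234.P2Defs

/-!
# P073, P2: the definitions of `P2Defs` with a set `W` of kept lattice cubes

The own cubes of generation `m + j` whose position is in `W` are kept (no mesh inside); only the
squares between two such cubes are clean.  (`P2Defs` is the case of all own cubes.)
-/

namespace Vale.Agent.P073.H340.PW

open MeasureTheory Set Filter Topology Metric Vale.Agent.P073.St Vale.Agent.P073.AB
open Vale.Agent.P073.SQ (ev)
open Vale.Agent.P073.AB.P86 (rel)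
open Vale.Agent.P073.H234
open _root_.P073.Net (dyc dyo)
open _root_.P073 (ConBall)
open scoped ENNReal

/-- the union of the open kept cubes -/
def ownW (v : V) (m j : ℕ) (W : Set (Fin 3 → ℤ)) : Set V := ⋃ w ∈ W, dyo v (m + j) w

/-- clean squares: both adjacent cubes are kept and in the big cube `z` -/
def CleanW (v : V) (m j : ℕ) (W : Set (Fin 3 → ℤ)) (z : Fin 3 → ℤ) (s : Idx × Fin 3) : Prop :=
  Clean v m j z s ∧ s.1.2 ∈ W ∧ dn s ∈ W

/-- the necks of `f` on the clean squares; `near` and `close` may also speak of other squares -/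
structure NecksW (θ M β σ : ℝ) (f : V → V) (v : V) (m j : ℕ) (J : Finset (Fin 3 → ℤ))
    (W : Set (Fin 3 → ℤ)) (A : (Fin 3 → ℤ) → V → V) where
  /-- discs -/
  ι : Type
  fin : Finite ι
  /-- neck cubes -/
  γ : Type
  ffin : Fintype γ
  /-- square of the disc -/
  s : ι → Idx × Fin 3
  D : ι → Set V
  c : ι → Set V
  b : γ → V
  ρ : γ → ℝ
  clean : ∀ i, ∃ z ∈ J, CleanW v m j W z (s i)
  ball : ∀ i, ConBall 2 (D i) (c i)
  disj : ∀ i i', i ≠ i' → Disjoint (D i) (D i')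
  sub : ∀ i, D i ⊆ rel v (s i)
  op : ∀ i, ∃ U, IsOpen U ∧ D i \ c i = squ v (s i) ∩ U
  circ : ∀ i, ∃ g, ∀ x ∈ c i, f x ∈ Metric.ball (b g) (ρ g)
  close : ∀ z ∈ J, ∀ s, CleanW v m j W z s → ∀ x ∈ squ v s, (∀ i, x ∉ D i \ c i) →
    ‖f x - A z x‖ ≤ β / 2 ^ (m + j)
  pos : ∀ g, 0 < ρ g
  bdisj : ∀ g g', g ≠ g' → Disjoint (closedBall (b g) (ρ g)) (closedBall (b g') (ρ g'))
  loc : ∀ y, ∑ g with ‖b g - y‖ ≤ 8 / 2 ^ (m + j), ρ g ≤ σ / 2 ^ (m + j)
  near : ∀ g, ∃ z ∈ J, ∃ s, Clean v m j z s ∧ ∃ x ∈ squ v s, ‖b g - A z x‖ ≤ 2 * β / 2 ^ (m + j)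

/-- the points outside of the box -/
def NExtW (v : V) (m j : ℕ) (W : Set (Fin 3 → ℤ)) (t₀ : ℝ) {ι : Type} (D c : ι → Set V)
    (Ω : Set V) (o : V) : Set V :=
  {x | x ∈ Ω ∧ x ∉ ownW v m j W ∧ (∀ i, x ∉ D i \ c i) ∧ x ∉ dbox v m t₀ o}

/-- the good points of the clean squares outside of the discs -/
def NSqW (v : V) (m j : ℕ) (J : Finset (Fin 3 → ℤ)) (W : Set (Fin 3 → ℤ)) {ι : Type}
    (D : ι → Set V) (o : V) (R : ℝ) : Set V :=
  {x | (∃ z ∈ J, ∃ s, CleanW v m j W z s ∧ x ∈ squ v s) ∧ (∀ i, x ∉ D i) ∧ R < ‖x - o‖}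

/-- **the points which must never enter the neck cube of `o`** -/
def NSetW (v : V) (m j : ℕ) (J : Finset (Fin 3 → ℤ)) (W : Set (Fin 3 → ℤ)) (t₀ : ℝ) {ι : Type}
    (D c : ι → Set V) (Ω : Set V) (o : V) (R : ℝ) : Set V :=
  NExtW v m j W t₀ D c Ω o ∪ NSqW v m j J W D o R ∪ NCi c o R ∪ NEd v m j J o R ∪
    NRay v m j J t₀ o R

theorem not_between {N : ℕ} {c : ℝ} {a w : ℤ} (h1 : c + (w:ℝ) / 2 ^ N < c + (a:ℝ) / 2 ^ N)
    (h2 : c + (a:ℝ) / 2 ^ N < c + ((w:ℝ) + 1) / 2 ^ N) : False := by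
  have hp : (0:ℝ) < 2 ^ N := by positivity
  have h3 : (w:ℝ) / 2 ^ N < (a:ℝ) / 2 ^ N := by linarith
  have h4 : (a:ℝ) / 2 ^ N < ((w:ℝ) + 1) / 2 ^ N := by linarith
  rw [div_lt_div_iff_of_pos_right hp] at h3 h4
  have h5 : w < a := by exact_mod_cast h3
  have h6 : a < w + 1 := by exact_mod_cast h4
  omega

theorem squ_eq_of_mem {v : V} {s s' : Idx × Fin 3} (hg : s.1.1 = s'.1.1) {x : V}
    (h : x ∈ rel v s) (h' : x ∈ squ v s') : s = s' := by
  obtain ⟨⟨n, w⟩, l⟩ := s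
  obtain ⟨⟨n', w'⟩, l'⟩ := s'
  simp only at hg
  subst hg
  obtain ⟨h1, h2⟩ := h
  obtain ⟨h3, h4⟩ := h'
  simp only at h1 h2 h3 h4
  have hl : l' = l := by
    by_contra hne
    obtain ⟨h5, h6⟩ := h2 l' hne
    rw [h3] at h5 h6
    exact not_between h5 h6
  subst hl
  have hp : (0:ℝ) < 2 ^ n := by positivity
  have hw : w = w' := by
    funext k
    by_cases hk : k = l'
    · subst hk
      rw [h1] at h3
      have : (w k : ℝ) / 2 ^ n = w' k / 2 ^ n := by linarith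
      rw [div_left_inj' hp.ne'] at this
      exact_mod_cast this
    · obtain ⟨h5, h6⟩ := h2 k hk
      obtain ⟨h7, h8⟩ := h4 k hk
      have h9 : (w k : ℝ) / 2 ^ n < (w' k + 1) / 2 ^ n := by linarith
      have h10 : (w' k : ℝ) / 2 ^ n < (w k + 1) / 2 ^ n := by linarith
      rw [div_lt_div_iff_of_pos_right hp] at h9 h10
      have h11 : w k < w' k + 1 := by exact_mod_cast h9
      have h12 : w' k < w k + 1 := by exact_mod_cast h10
      omega
  subst hw
  rfl

/-- the discs in the clean squares -/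
noncomputable def necksW {θ M β σ : ℝ} {f : V → V} {v : V} {m j : ℕ} {J : Finset (Fin 3 → ℤ)}
    {A : (Fin 3 → ℤ) → V → V} (N : Necks θ M β σ f v m j J A) (W : Set (Fin 3 → ℤ)) :
    NecksW θ M β σ f v m j J W A :=
  have := N.fin
  { ι := {i : N.ι // ∃ z ∈ J, CleanW v m j W z (N.s i)}
    fin := inferInstance
    γ := N.γ
    ffin := N.ffin
    s := fun i => N.s i.1
    D := fun i => N.D i.1
    c := fun i => N.c i.1
    b := N.b
    ρ := N.ρ
    clean := fun i => i.2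
    ball := fun i => N.ball i.1
    disj := fun i i' h => N.disj _ _ fun h' => h (Subtype.ext h')
    sub := fun i => N.sub i.1
    op := fun i => N.op i.1
    circ := fun i => N.circ i.1
    close := fun z hz s hs x hx hxD => by
      refine N.close z hz s hs.1 x hx fun i hi => ?_
      refine hxD ⟨i, z, hz, ?_⟩ hi
      obtain ⟨z', -, hc⟩ := N.clean i
      have h1 : N.s i = s := by
        have h2 := N.sub i hi.1
        exact squ_eq_of_mem (hc.1.trans hs.1.1.symm) h2 hx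
      rw [h1]; exact hs
    pos := N.pos
    bdisj := N.bdisj
    loc := N.loc
    near := N.near }

end Vale.Agent.P073.H340.PW
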