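import Vale.Agent.P073.H340.PEspec
import Vale.Agent.P073.H333.Gener

/-!
# P073, [PRE-2] (`p = 2`): the first stage of the choice of the constants

`Nums2`: the numbers; `PEa`: good cells, numbers, auxiliary homeomorphism, net.
-/

namespace Vale.Agent.P073.H340

open MeasureTheory Set Filter Topology Metric Vale.Agent.P073.St Vale.Agent.P073.AB
open Vale.Agent.P073.SQ (ev)
open _root_.P073 (ConHomeo)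
open _root_.P073.Net (dyc dyo IsTile SizeFn len)
open Vale.Agent.P073.H73 (MinEdge Bix ctr WLe segP onSeg)
open Vale.Agent.P073.H194 (idx sInt)
open Vale.Agent.P073.H83 (CellsG gB grho GenB)
open Vale.Agent.P073.H234 (Touch Tch dn NetRes2)
open Vale.Agent.P073.H333 (lay gap core out base inet Mid PD0 Generic)
open Vale.Agent.P073.H989 (LocJ)
open scoped ENNReal

/-- the numbers; `cs`: constant in the bound of the energy on the outer faces -/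
structure Nums2 (p ε δ θ M C a₁ : ℝ) (vol CC cs : ℝ≥0∞) (ks kt k₁ : ℕ) (β : ℝ) (εe : ℝ≥0∞) :
    Prop where
  kt2 : 2 ≤ kt
  k3 : 3 ≤ k₁
  β0 : 0 < β
  e0 : εe ≠ 0
  T1 : 32 / 2 ^ ks ≤ θ
  T2 : 288000 * (M / 2 ^ k₁) ≤ 1 / 2 ^ ks
  T3 : 32 * (M + 1) / 2 ^ k₁ ≤ θ
  η1 : C / 2 ^ k₁ ≤ a₁ / 2 ^ ks / 2
  η2 : 2 * (C / 2 ^ k₁) + M * (1 / 2 ^ k₁) ≤ δ * (a₁ / 2 ^ ks / 2)
  c4 : 3 * (2 ^ (p - 1) * (ENNReal.ofReal M ^ p *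
    (ENNReal.ofReal (12 / 2 ^ k₁ + 24 / (θ * 2 ^ ks) + 6 / 2 ^ kt) * vol))) ≤
    ENNReal.ofReal (ε / 2)
  c5 : 2 ^ (p - 1) * (cK a₁ ^ p * (36 * (CC * (ENNReal.ofReal M ^ p *
    (ENNReal.ofReal (12 / 2 ^ k₁ + 24 / (θ * 2 ^ ks) + 6 / 2 ^ kt) * vol))))) ≤
    ENNReal.ofReal (ε / 8)
  c6 : 2 ^ (p - 1) * (cK a₁ ^ p * εe) ≤ ENNReal.ofReal (ε / 8)
  c7 : 2 ^ (p - 1) * (24 * ENNReal.ofReal β ^ p * vol) ≤ ENNReal.ofReal (ε / 8)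
  c8 : 2 ^ (p - 1) * (cK a₁ ^ p * (36 * (CC * (cs * ENNReal.ofReal (1 / 2 ^ k₁)) +
      ENNReal.ofReal (1 + 4 * (2 / a₁)) ^ p *
        (ENNReal.ofReal M ^ p * (6 * ENNReal.ofReal (12 / 2 ^ k₁) * vol))))) ≤
    ENNReal.ofReal (ε / 8)
  c9 : 24 * (ENNReal.ofReal (16 * (2 / a₁ * (2178 * (1 + 4 * (2 / a₁))))) ^ p * (2 ^ (p - 1) *
    (ENNReal.ofReal (M ^ p + 1) + ENNReal.ofReal (M + C + 1) ^ p))) *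
    (ENNReal.ofReal (24 / 2 ^ k₁) * vol) ≤ ENNReal.ofReal (ε / 8)

/-- **[NUMS2]** -/
def SpecNums2 : Prop :=
  ∀ (p ε δ θ M C a₁ : ℝ), 1 < p → 0 < ε → 0 < δ → 0 < θ → 0 < a₁ → a₁ ≤ 1 / 2 →
    ∀ vol CC cs : ℝ≥0∞, vol ≠ ⊤ → CC ≠ ⊤ → cs ≠ ⊤ →
    ∃ (ks kt k₁ : ℕ) (β : ℝ) (εe : ℝ≥0∞), Nums2 p ε δ θ M C a₁ vol CC cs ks kt k₁ β εe

/-- **[NUMS2]**, the energy outside of the good cells -/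
def SpecEpsc2 : Prop :=
  ∀ (p ε a₁ : ℝ), 1 < p → 0 < ε → 0 < a₁ → ∀ CC : ℝ≥0∞, CC ≠ ⊤ →
    ∃ εc : ℝ≥0∞, εc ≠ 0 ∧ εc ≠ ⊤ ∧ 3 * εc ≤ ENNReal.ofReal ε ∧
      3 * (εc + 2 ^ (p - 1) * εc) ≤ ENNReal.ofReal (ε / 2) ∧
      2 ^ (p - 1) * (cK a₁ ^ p * (36 * (CC * εc))) ≤ ENNReal.ofReal (ε / 8) ∧
      εc ≤ ENNReal.ofReal ε

/-- **the first stage** -/
structure PEa (p ε δ : ℝ) (CC : ℝ≥0∞) (Ω Λ : Set V) (f : V → V) (F : V → Mat) where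
  θ : ℝ
  M : ℝ
  /-- constant of `NetInP2` -/
  C₀ : ℝ
  κ : ℝ
  a₁ : ℝ
  β : ℝ
  ks : ℕ
  kt : ℕ
  k₁ : ℕ
  k₀ : ℕ
  n : ℕ
  v : V
  /-- auxiliary homeomorphism -/
  g : V → V
  G : V → ℝ≥0∞
  nn : ℕ → ℕ
  J : Finset (Fin 3 → ℤ)
  A : (Fin 3 → ℤ) → V → V
  L : (Fin 3 → ℤ) → V →L[ℝ] V
  N : ℕ
  εc : ℝ≥0∞
  εe : ℝ≥0∞
  cs : ℝ≥0∞
  K : Set V
  M0 : 0 < M
  C00 : 0 < C₀
  a0 : 0 < a₁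
  a1 : a₁ ≤ 1 / 288000
  num : Nums2 p ε δ θ M (2 * C₀ + M + 1) a₁ (volume Ω) CC cs ks kt k₁ β εe
  m2 : 2 ≤ n + ks
  η4 : 1 / 2 ^ (n + ks) ≤ ε
  nm : StrictMono nn
  Gm : Measurable G
  Gfin : ∫⁻ x, G x ≠ ⊤
  gen : Generic p Ω f F G nn v
  pl : ∀ᵐ c : V, ∀ x ∈ Ω, f x = c → ∀ m, x ∈ dyo v m (idx v m x)
  rp : ∀ᵐ x, (Ω.indicator fun x => ‖cl (F x)‖ₑ ^ p) x = G x
  H : CellsG θ M (κ / 2 ^ (n + k₁ + k₀)) (n + ks) n k₁ Ω Λ g v J A L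
  loc : LocJ v n (n + ks) J A
  aff : ∀ z x y, A z y - A z x = L z (y - x)
  fine : H669.Fine Ω v n k₁ k₀ J
  /-- the conclusion of `NetInP2` for these cells -/
  net : ∀ I : Set Idx, Part Ω v I →
    (∀ u, Tch v n (n + k₁ + k₀) J u → ((n + k₁ + k₀, u) : Idx) ∈ I) →
    (∀ e : Idx × Fin 3, (∃ q ∈ I, EdgeOf e q) →
      eInt v e (fun x => ENNReal.ofReal ‖cl (F x) (ev e.2)‖) ≠ ⊤) →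
    ∀ (σ : V → ℝ) (δe : Idx × Fin 3 → ℝ) (τ : ℝ), ContinuousOn σ Ω → (∀ x ∈ Ω, 0 < σ x) →
    (∀ e, 0 < δe e) → 0 < τ →
    ∃ h : ConHomeo Ω Λ, NetRes2 v I n k₁ k₀ J C₀ ε τ A f F Ω σ δe h.toFun
  dyL : ∀ z ∈ J, ∀ i j, ∃ a : ℤ, L z (ev j) i = a / 2 ^ N
  dyA : ∀ z ∈ J, ∀ i, ∃ a : ℤ, A z v i = a / 2 ^ N
  es1 : ∑ z ∈ J, ∫⁻ y in dyc v n z, ‖cl (F y) - L z‖ₑ ^ p ≤ εc
  es2 : ∫⁻ y in Ω \ ⋃ z ∈ J, dyc v n z, ‖cl (F y)‖ₑ ^ p ≤ εc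
  own : ∀ u, Tch v n (n + k₁ + k₀) J u → ∀ e : Idx × Fin 3, EdgeOf e (n + k₁ + k₀, u) →
    eInt v e G ≤ ENNReal.ofReal ((M ^ p + 1) / 2 ^ (n + k₁ + k₀))
  fown : ∀ z ∈ J, ∀ u, Touch v n (n + k₁ + k₀) z u → ∀ e : Idx × Fin 3,
    EdgeOf e (n + k₁ + k₀, u) → ∀ x ∈ edge v e, ‖f x - A z x‖ ≤ 1 / 2 ^ (n + k₁ + k₀)
  fsum : faceSum Ω v n k₁ k₀ J G ≤ cs * ENNReal.ofReal (1 / 2 ^ k₁)
  Ksub : K ⊆ Ω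
  Kc : IsCompact K
  Kvol : volume (Ω \ K) ≤ ENNReal.ofReal ε
  osc : ∀ x ∈ K, ∀ y, ‖y - x‖ ≤ 1 / 2 ^ n → ‖f y - f x‖ ≤ ε
  c1 : 3 * εc ≤ ENNReal.ofReal ε
  c2 : 3 * (εc + 2 ^ (p - 1) * εc) ≤ ENNReal.ofReal (ε / 2)
  c3 : 2 ^ (p - 1) * (cK a₁ ^ p * (36 * (CC * εc))) ≤ ENNReal.ofReal (ε / 8)

/-- **[E9-A]** the first stage exists -/
def SpecPEa (p : ℝ) : Prop :=
  ∀ (ε δ : ℝ) (CC : ℝ≥0∞) (Ω Λ : Set V) (f : V → V) (F : V → Mat), 0 < ε → 0 < δ → CC ≠ ⊤ →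
    St.IsBoundedDomain Ω → St.IsBoundedDomain Λ → St.IsHomeo Ω Λ f → St.IsSobolev p Ω f F →
    FinDist Ω F → Nonempty (PEa p ε δ CC Ω Λ f F)

end Vale.Agent.P073.H340
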