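import Vale.Agent.P073.H340.PEa
import Vale.Agent.P073.H83.Own2c
import Vale.Agent.P073.H333.PEnet
import Vale.Agent.P073.H333.PDb
import Vale.Agent.P073.H989.PEcells
import Vale.Agent.P073.H989.P2Set
import Vale.Agent.P073.H989.Orig3
import Vale.Agent.P073.H407.Nums2

/-!
# P073, [PRE-2] (`p = 2`): [E9-A] the first stage exists
-/

namespace Vale.Agent.P073.H340

open MeasureTheory Set Filter Topology Metric Vale.Agent.P073.St Vale.Agent.P073.AB
open Vale.Agent.P073.SQ (ev)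
open _root_.P073 (ConHomeo)
open _root_.P073.Net (dyc dyo IsTile SizeFn len)
open Vale.Agent.P073.H194 (idx sInt)
open Vale.Agent.P073.H234 (Touch Tch dn NetRes2 P2Cells Num)
open Vale.Agent.P073.H333 (ev_div_le eventually_osc)
open Vale.Agent.P073.H989 (Ad Ld subJ par subCells Ad_of Ld_of cst)
open scoped ENNReal

theorem twelfth_add (x : ℝ≥0∞) : x / 12 + x / 12 = x / 6 := by
  have h : (12:ℝ≥0∞) = 2 * 6 := by norm_num
  rw [ENNReal.div_add_div_same, ← two_mul, h,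
    ENNReal.mul_div_mul_left _ _ (by norm_num) (by norm_num)]

theorem sixth_le (x : ℝ≥0∞) : x / 6 ≤ x :=
  ENNReal.div_le_of_le_mul (le_mul_of_one_le_right (zero_le) (by norm_num))

theorem three_sixth (x : ℝ≥0∞) : 3 * (x / 6) = x / 2 := by
  have h : (6:ℝ≥0∞) = 3 * 2 := by norm_num
  rw [← mul_div_assoc, h, ENNReal.mul_div_mul_left _ _ (by norm_num) (by norm_num)]

/-- the energy outside of the cells -/
theorem es2_num {e x X : ℝ≥0∞} (he : e ≤ x / 6) (hX : (2:ℝ≥0∞) ^ ((2:ℝ) - 1) * X ≤ x / 2) :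
    e + 2 ^ ((2:ℝ) - 1) * (e + X) ≤ x := by
  have h2 : (2:ℝ≥0∞) ^ ((2:ℝ) - 1) = 2 := by
    rw [show (2:ℝ) - 1 = 1 by norm_num, ENNReal.rpow_one]
  rw [h2] at hX ⊢
  calc e + 2 * (e + X) = 3 * e + 2 * X := by ring
    _ ≤ 3 * (x / 6) + x / 2 := add_le_add (by gcongr) hX
    _ = x := by rw [three_sixth, ENNReal.add_halves]

/-- **[E9-A]** -/
theorem specPEa_two (hN : H333.NetInP2') : SpecPEa 2 := by
  intro ε δ CC Ω Λ f F hε hδ hCC hΩ hΛ hf hF hFD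
  have hp1 : (1:ℝ) ≤ 2 := by norm_num
  have hvol := PK.volume_ne_top_of_domain hΩ
  obtain ⟨Cf, Kf, hCf, HN⟩ := hN
  have ha0 : (0:ℝ) < 1 / 288000 := by norm_num
  obtain ⟨εc, h0, hct, c1, c2, c3, c0'⟩ := H407.specEpsc2 2 ε (1 / 288000) (by norm_num) hε ha0 CC
    hCC
  have h12 : εc / 12 ≠ 0 := (ENNReal.div_pos h0 (by norm_num)).ne'
  obtain ⟨θ, hθ, M, hM, T, hT, hTe⟩ := H989.exists_goodT hp1 hΩ hΛ hf hF hFD h12
  obtain ⟨c₀, hc₀, HS⟩ := H989.exists_p2setup hp1 hΩ hΛ hf hF hθ hM hT h12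
  obtain ⟨G, Gm, Gfin, Grep, nn, hnn, v, hpl, hgen, O⟩ := H989.exists_generic2 hp1 hΩ hf hF
    (H194.ae_planes' hΛ.1 hf) hT.comp.measurableSet hT.comp.measure_lt_top.ne
  set θ' : ℝ := θ / 2 with hθ'd
  set M' : ℝ := M + θ with hM'd
  have hθ' : 0 < θ' := by positivity
  have hM' : 0 < M' := by positivity
  have hθM : θ' ≤ M' := by rw [hθ'd, hM'd]; linarith
  set cs : ℝ≥0∞ := ENNReal.ofReal (312 * (M' ^ 2 + 1)) * volume Ω with hcsd
  have hcs : cs ≠ ⊤ := ENNReal.mul_ne_top ENNReal.ofReal_ne_top hvol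
  obtain ⟨ks, kt, k₁, β, εe, num⟩ := H407.specNums2 2 ε δ θ' M' (2 * Cf θ' M' + M' + 1)
    (1 / 288000) (by norm_num) hε hδ hθ' ha0 (by norm_num) (volume Ω) CC cs hvol hCC hcs
  -- the generation of the sub-cubes
  obtain ⟨d, hd2, hd⟩ : ∃ d : ℕ, 2 ≤ d ∧ (2:ℝ≥0∞) ^ ((2:ℝ) - 1) *
      (ENNReal.ofReal M' ^ (2:ℝ) * (ENNReal.ofReal (6 / 2 ^ d) * volume Ω)) ≤ εc / 2 := by
    have hK : (2:ℝ≥0∞) ^ ((2:ℝ) - 1) * (ENNReal.ofReal M' ^ (2:ℝ) * volume Ω) ≠ ⊤ :=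
      ENNReal.mul_ne_top (ENNReal.rpow_ne_top_of_nonneg (by norm_num) (by norm_num))
        (ENNReal.mul_ne_top (ENNReal.rpow_ne_top_of_nonneg (by norm_num) ENNReal.ofReal_ne_top)
          hvol)
    have h1 := ENNReal.Tendsto.const_mul (H333.tendsto_ofReal_div 6) (Or.inr hK)
    rw [mul_zero] at h1
    have h2 : (0:ℝ≥0∞) < εc / 2 := ENNReal.div_pos h0 (by norm_num)
    obtain ⟨d, hd1, hd2⟩ := ((h1.eventually_lt_const h2).and (eventually_ge_atTop 2)).exists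
    refine ⟨d, hd2, le_trans (le_of_eq ?_) hd1.le⟩
    ring
  obtain ⟨k₂, b, σ₀, κ₀, hk₂, hσ40, hcst, hb0, hb8, hσ0, hσb, hκ₀, HN⟩ :=
    HN θ' M' k₁ d hθ' hM' num.k3 (by omega)
  set k₀ := Kf θ' M' k₁ with hk₀
  obtain ⟨κ₁, hκ₁, HS⟩ := HS b σ₀ hb0 (by linarith) hσ0
  obtain ⟨κ, hκ, e1, e2, e3, e4, e5⟩ : ∃ κ > 0, κ ≤ κ₀ ∧ κ ≤ κ₁ ∧ 16 * κ ≤ b ∧ 16 * κ ≤ θ' ∧
      3 * κ ≤ 1 := by
    refine ⟨min (min κ₀ κ₁) (min (b / 16) (min (θ' / 16) (1 / 3))), by positivity, ?_, ?_, ?_, ?_,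
      ?_⟩
    · exact (min_le_left _ _).trans (min_le_left _ _)
    · exact (min_le_left _ _).trans (min_le_right _ _)
    · have := (min_le_right (min κ₀ κ₁) (min (b / 16) (min (θ' / 16) (1 / 3)))).trans
        (min_le_left _ _)
      linarith
    · have := ((min_le_right (min κ₀ κ₁) (min (b / 16) (min (θ' / 16) (1 / 3)))).trans
        (min_le_right _ _)).trans (min_le_left _ _)
      linarith
    · have := ((min_le_right (min κ₀ κ₁) (min (b / 16) (min (θ' / 16) (1 / 3)))).trans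
        (min_le_right _ _)).trans (min_le_right _ _)
      linarith
  obtain ⟨t₁, ht₁, HS⟩ := HS κ κ (ε / 8) hκ e2 hκ e2 (by positivity)
  obtain ⟨δ₁, hδ₁, HS⟩ := HS t₁ ht₁ le_rfl
  obtain ⟨hTS, HS⟩ := HS δ₁ hδ₁ le_rfl
  have HQ : ∀ᵐ x ∂(volume : Measure V), x ∈ T → ∀ᶠ l in atTop,
      ∀ e : Idx × Fin 3, e.1.1 = nn l + (d + k₁ + k₀) →
        edge v e ⊆ dyc v (nn l) (idx v (nn l) x) →
        eInt v e G ≤ ENNReal.ofReal ((‖cl (F x)‖ ^ (2:ℝ) + 1) / 2 ^ (nn l + (d + k₁ + k₀))) := by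
    filter_upwards [hgen.own hp1 hΩ.1 hnn (d + k₁ + k₀)] with x hx h
    exact hx (hT.sub h)
  have E1 := HS hnn O () rfl (d + k₁ + k₀ + k₂) (fun l x => ∀ e : Idx × Fin 3,
      e.1.1 = nn l + (d + k₁ + k₀) → edge v e ⊆ dyc v (nn l) (idx v (nn l) x) →
        eInt v e G ≤ ENNReal.ofReal ((‖cl (F x)‖ ^ (2:ℝ) + 1) / 2 ^ (nn l + (d + k₁ + k₀)))) HQ
  -- the compact set
  obtain ⟨K, hK, hKc, hKv⟩ : ∃ K ⊆ Ω, IsCompact K ∧ volume (Ω \ K) < ENNReal.ofReal ε :=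
    hΩ.1.measurableSet.exists_isCompact_sdiff_lt hvol (ENNReal.ofReal_pos.2 hε).ne'
  have E3 := eventually_osc hΩ.1 hf hK hKc hnn 1 hε
  have E4 := hnn.tendsto_atTop.eventually (ev_div_le 4 (half_pos hc₀))
  have E5 := hnn.tendsto_atTop.eventually (ev_div_le (Cf θ' M') (half_pos hε))
  have E6 := hnn.tendsto_atTop.eventually (ev_div_le 1 (lt_min hε hδ₁))
  obtain ⟨l, ⟨P, hPq, hPs, Nk⟩, f3, f4, f5, f6⟩ := (E1.and (E3.and (E4.and (E5.and E6)))).exists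
  have hTe' : (∫⁻ y in Ω \ T, ‖cl (F y)‖ₑ ^ (2:ℝ)) + εc / 12 ≤ εc / 6 := by
    exact (add_le_add hTe le_rfl).trans (twelfth_add εc).le
  have f4' : 4 / 2 ^ nn l < c₀ := by linarith
  obtain ⟨N, hNL, hNA⟩ := H989.Ad_dyad P d
  have hnum : Num θ' M' κ b := ⟨hθ', hM'.le, hb0, hb8, e3, e4⟩
  have hk2' : cst θ' M' b < θ' * 2 ^ (k₀ + k₂) := by
    refine hcst.trans_le (mul_le_mul_of_nonneg_left ?_ hθ'.le)
    exact pow_le_pow_right₀ (by norm_num) (by omega)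
  obtain ⟨g, hg⟩ := H989.exists_gcells hΩ hΛ hf O.rat P hTS hnum Nk f4' hσ0 hσb hσ40
    (d := d) (k₁ := k₁) (k₀ := k₀) rfl num.k3 hk2' ks
  have S := subCells P d
  have hfine := H989.fine_sub hΩ (d := d) (k₁ := k₁) (k₀ := k₀) P f4' (by have := num.k3; omega)
  have hle : (1:ℝ) / 2 ^ (nn l + d) ≤ 1 / 2 ^ nn l := by
    apply one_div_le_one_div_of_le (by positivity)
    exact pow_le_pow_right₀ (by norm_num) (by omega)
  have hle' : (1:ℝ) / 2 ^ (nn l + d + ks) ≤ 1 / 2 ^ nn l := by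
    apply one_div_le_one_div_of_le (by positivity)
    exact pow_le_pow_right₀ (by norm_num) (by omega)
  exact ⟨{
    θ := θ', M := M', C₀ := Cf θ' M', κ := cst θ' M' b / 2 ^ k₂, a₁ := 1 / 288000, β := β
    ks := ks, kt := kt, k₁ := k₁, k₀ := k₀, n := nn l + d, v := v, g := g, G := G, nn := nn
    J := subJ P.J d, A := Ad P.A P.J d, L := Ld P.L P.J d, N := N, εc := εc, εe := εe, cs := cs
    K := K
    M0 := hM', C00 := hCf _ _, a0 := ha0, a1 := le_rfl, num := num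
    m2 := by omega
    η4 := hle'.trans (f6.trans (min_le_left _ _))
    nm := hnn, Gm := Gm, Gfin := Gfin, gen := hgen, pl := hpl, rp := Grep
    H := hg
    loc := H989.locJ_sub hTS (by linarith) hθ' ht₁ P hκ.le (by linarith) hθM (by omega)
      num.T1 num.T3
    aff := H989.Ad_aff P d
    fine := hfine
    net := by
      intro I hI hTI hfin σ δe τ hσc hσp hδe hτ
      obtain ⟨h, hh⟩ := HN κ hκ e1 2 _ c₀ t₁ δ₁ (ε / 8) Ω Λ f F T v (nn l) P hΩ hΛ hf O.rat hTS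
        (by positivity) ht₁ (f6.trans (min_le_right _ _)) f4' Nk (subJ P.J d) (par d) S I hI hTI
        hfin σ δe τ hσc hσp hδe hτ
      exact ⟨h, H989.NetRes2.congr hh (fun z hz => (Ad_of hz).symm) (by linarith)⟩
    dyL := hNL
    dyA := hNA
    es1 := (H989.es1_sub P d).trans (hTe'.trans (sixth_le εc))
    es2 := by
      exact (H989.sub_es2 hp1 P hM'.le hΩ.1.measurableSet hPs hd2).trans (es2_num hTe' hd)
    own := by
      have h1 := H83.own2 (N := nn l + d + k₁ + k₀) (p := 2) (G := G) S (by omega) (by omega)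
        (by norm_num) hM'.le hTS.upp (by
          intro Z hZ
          obtain ⟨x, hxT, hxZ, hq⟩ := hPq Z hZ
          refine ⟨x, hxT, hxZ, fun e he hes => ?_⟩
          have h2 : nn l + d + k₁ + k₀ = nn l + (d + k₁ + k₀) := by omega
          rw [h2] at he ⊢
          exact hq e he hes)
      exact h1
    fown := by
      intro z hz u hu e he x hx
      rw [Ad_of hz]
      exact H83.fown2 hTS S (by omega) (by omega) (by omega) e5 z hz u hu e he x hx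
    fsum := H83.faceSum_own' hΩ.1 hM'.le (by linarith) S (by omega) (by omega) hfine
      fun s => (hgen.rep _ G fun _ h => h).2 s
    Ksub := hK
    Kc := hKc
    Kvol := hKv.le
    osc := fun x hx y hy => (f3 x hx y (hy.trans hle)).2
    c1 := c1, c2 := c2, c3 := c3 }⟩

end Vale.Agent.P073.H340
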