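import Vale.Agent.P073.H340.PEa2
import Vale.Agent.P073.H340.PEd
import Vale.Agent.P073.H234.Final2
import Vale.Agent.P073.PA285.Top
import Vale.Agent.P073.H399.SGB4
import Vale.Agent.P073.H16.UnifE
import Vale.Agent.P073.H407.CellE

/-!
# P073, [PRE-2]: `SpecPre 2`, unconditional
-/

namespace Vale.Agent.P073.H340

/-- the cells, the net and the numbers at the exponent two -/
theorem netInP2' : H333.NetInP2' :=
  H234.netInP2'_of PA285.netOutN (H234.cellMod_of (_root_.P073.Cell.specCellE_of
    (_root_.P073.H16.specUE fun X hX hXS ε hε => _root_.P073.H399.small_gb4 X hX hXS ε hε)))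

/-- **[E9-A]** at the exponent two -/
theorem specPEa : SpecPEa 2 := specPEa_two netInP2'

/-- **`SpecPre 2`** -/
theorem specPre_two : H73.SpecPre 2 := specPre_of_a le_rfl (by norm_num) specPEa

end Vale.Agent.P073.H340
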