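import Vale.Agent.P073.H340.RowsS
import Vale.Agent.P073.H429.RowT
import Vale.Agent.P073.H237.RowC
import Vale.Agent.P073.H237.RowW

/-!
# P073, H340: **the rows of the drawn cells and of the Lipschitz constants**

`rcell_of`: `RCell` from the row of the numbers of the drawn cells.
-/

open Set Metric Topology Filter MeasureTheory
open scoped ENNReal

set_option linter.unusedSectionVars false

namespace Vale.Agent.P073.Top880

open _root_.P073 _root_.P073.Net _root_.P073.PA691 _root_.P073.H236 _root_.P073.H579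
open Vale.Agent.P073.St (V)
open Vale.Agent.P073.H471 Vale.Agent.P073.H267
open Vale.Agent.P073.H73 (Mesh onSeg)
open Vale.Agent.P073.H304 (Nb)
open Vale.Agent.P073.H193 (Edges edges CellNum Covered TFaces cs)
open Vale.Agent.P073.H926
open Vale.Agent.P073.H238.K3
open Vale.Agent.P073.H267.K3
open Vale.Agent.P073.H31.K3 (FNum1)
open Vale.Agent.P073.H233 (Tol)

/-- **the row of the numbers of the drawn cells** -/
def RCNum (p C₀ : ℝ) : Prop :=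
  ∃ d : ℝ, ∀ D₀ : ℝ, d ≤ D₀ →
  ∀ {c₀ n δ : ℝ} {j : ℕ} {Ω Λ : Set V} {v w : V} {ρ : V → ℝ} {M : Mesh Ω} {h : ConHomeo Ω Λ}
    {J₀ J : Set (ℕ × (Fin 3 → ℤ))} {P Z : Set M.ι} {K : BoxCx Λ w}
    (D : KIn3 c₀ n j δ v w ρ M h J₀ J P Z) (C : Cells ρ w K) (Ys : Set M.κ) {μ r ν : ℝ}
    {sc : Sharp}, Cn p μ r sc ν n δ →
    ∀ {ε : M.κ → ℝ} {om εL : (edges M).ε → ℝ} {lam osc : M.ι → ℝ},
    (∀ k, 0 < ε k) → Tol M h.toFun ε om εL lam osc →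
    RowP D C C₀ (n / 128) Ys sc fun Y₅ => ∃ tin, CellNum Y₅ p D₀ ε εL lam tin

/-- **`RCell`** -/
theorem rcell_of {p C₀ : ℝ} (hp : 2 < p) (hC₀ : 1 ≤ C₀) (HN : RCNum p C₀) : RCell p C₀ := by
  obtain ⟨d, HN⟩ := HN
  set q : ℝ := 8 * (500 * C₀ + 700) + 32 * C₀ with hq
  have hq0 : 0 ≤ q := by positivity
  -- the constants off the sharp faces
  set Cc : ℝ := max (max (312 * q) (1760 * C₀)) (55 * (624 * q + 1)) with hCc
  set cc : ℝ := max (3 * (3 * (cs p * (38 * Cc + 1)) + 1)) (max Cc (3 * C₀ + 1)) with hcc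
  refine ⟨3, by norm_num, d, fun D₀ hD₀ => ⟨cc, fun C₁ hC₁ μ r ν sc N1 => ?_⟩⟩
  have a1 : 312 * q ≤ Cc := (le_max_left _ _).trans (le_max_left _ _)
  have a2 : 1760 * C₀ ≤ Cc := (le_max_right _ _).trans (le_max_left _ _)
  have a3 : 55 * (624 * q + 1) ≤ Cc := le_max_right _ _
  have b1 : 3 * (3 * (cs p * (38 * Cc + 1)) + 1) ≤ C₁ := (le_max_left _ _).trans hC₁
  have b2 : Cc ≤ C₁ := ((le_max_left _ _).trans (le_max_right _ _)).trans hC₁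
  have b3 : 3 * C₀ + 1 ≤ C₁ := ((le_max_right _ _).trans (le_max_right _ _)).trans hC₁
  -- the constants on the sharp faces
  set kT' : ℝ := max Cc (55 * (4 * (FW31.DK sc.K * q) + 1)) with hkT'
  set Cc' : ℝ := max kT' (2 * FW31.DK sc.K * q) with hCc'
  set cc' : ℝ := max (3 * (3 * (cs p * (38 * Cc' + 1)) + 1)) Cc' with hcc'
  refine ⟨cc', fun C₁' hC₁' hCC => ?_⟩
  have d1 : 3 * (3 * (cs p * (38 * Cc' + 1)) + 1) ≤ C₁' := (le_max_left _ _).trans hC₁'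
  have d2 : Cc' ≤ C₁' := (le_max_right _ _).trans hC₁'
  have d3 : kT' ≤ Cc' := le_max_left _ _
  have d4 : 2 * FW31.DK sc.K * q ≤ Cc' := le_max_right _ _
  have d5 : Cc ≤ kT' := le_max_left _ _
  have d6 : 55 * (4 * (FW31.DK sc.K * q) + 1) ≤ kT' := le_max_right _ _
  intro c₀ n δ j Ω Λ v w ρ M h J₀ J P Z K D C Ys Hn ε om εL lam osc hε T
  have HQ : RowP D C C₀ (n / 128) Ys sc fun {_ _ Y₃ _} _ => Y₃.q = q :=
    ⟨Slots.one, fun Y₅ h5 => h5.q⟩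
  have HV : RowP D C C₀ (n / 128) Ys sc fun Y₅ => Covered Y₅ := row_cover D C C₀ (n / 128) Ys sc
  have HT : RowP D C C₀ (n / 128) Ys sc fun Y₅ => TFaces Y₅ Cc kT' :=
    row_tfaces D C hC₀ a3 d6 d5
  have HW := row_lipW (μT := n / 128) (Ys := Ys) (sc := sc) D C hC₀ (D₁ := 3 * C₀ + 1) le_rfl
  obtain ⟨SW, HW⟩ := HW
  have HW' : RowP D C C₀ (n / 128) Ys sc fun Y₅ => H233.FullJ w ρ J₀ J →
      ∀ i, i ∉ P → i ∉ Zd D → ∀ L > 0,
      (∀ i', (M.Q i ∩ M.Q i').Nonempty →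
        ∀ x ∈ M.Q i', ∀ y ∈ M.Q i', ‖h.toFun x - h.toFun y‖ ≤ L * ‖x - y‖) →
      ∀ x ∈ M.Q i, H233.LAt (D.B C) (H233.Xp C J₀) ((3 * C₀ + 1) * L) (M.Q i) Y₅.f.toFun x :=
    ⟨SW, HW⟩
  refine ((HQ.and HV).and ((HT.and HW').and (HN D₀ hD₀ D C Ys Hn hε T))).mono ?_
  rintro X Y₂ Y₃ Y₄ Y₅ ⟨⟨k1, k2⟩, ⟨k3, k4⟩, tin, k5⟩ ⟨t4, t5, k6⟩ -
  refine ⟨?_, ?_⟩
  · exact Y₅.lip k6 k5 hp T.lam_le k2 k3 (by rw [k1]; exact hq0) k4
      (by rw [k1]; exact a1) a2 le_rfl (by rw [k1]; exact d4) d3 (d5.trans d3) b1 d1 b3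
      (b3.trans hCC)
  · exact Y₅.cell k6 k5 hp D.inp.drawn k2 k3 (by rw [k1]; exact hq0) (by rw [k1]; exact a1.trans b2)
      (a2.trans b2) b2 (by rw [k1]; exact d4.trans d2) (d3.trans d2) hCC (by norm_num)

end Vale.Agent.P073.Top880
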