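import Vale.Agent.P073.H340.TgF1A

/-!
# P073, block B10, rank one: **[TGT-B]** the target with segments (`H239.SpecTgtF1`)
-/

open Set Metric Topology Filter WithLp MeasureTheory Matrix
open scoped ENNReal

namespace Vale.Agent.P073.H340

open _root_.P073
open _root_.P073.Net (dyc dyo IsTile SizeFn)
open Vale.Agent.P073.St (V)
open Vale.Agent.P073.AB (Idx)
open Vale.Agent.P073.H471 (Cubes TI zt st cB_eq B_eq cubes_tiles st_pos)
open Vale.Agent.P073.H726 (LBOn Coll)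
open Vale.Agent.P073.H239 (GC PFam fam kks Num bx dd DD fn fam_off TgtO TgtP1 SpecTgtF1)
open Vale.Agent.P073.H851 (M3 TP IsApx lip_sup_of_eu afm kp)

/-- **(G4) [TGT-B]** -/
theorem specTgtF1 : SpecTgtF1 := by
  obtain ⟨r0, L, hrL⟩ := H851.exists_constM
  obtain ⟨Lc, hLc0, hLc1, hLc2⟩ := H851.exists_LcQ hrL 17 (Cg := 6) (by norm_num)
  refine ⟨28 * 2 ^ 17 * 6, Lc, by norm_num, hLc0, fun ε hε =>
    ⟨min (1 / 10) (ε / 14), by positivity, ?_⟩⟩
  intro Ω Λ hΛ ι hι lo hi R b r c jt Kc hbb F₁ F₂ hR hr hc hKc hKcc hgrid M₀ hM₀ j v hj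
  have hb0 := F₁.b0
  have hb1 : b ≤ 1 / 10 := hbb.trans (min_le_left _ _)
  have hb2 : b ≤ ε / 14 := hbb.trans (min_le_right _ _)
  have hΛo := hΛ.1
  have hΛb := PK.isBounded_of_domain hΛ
  have hΛne : Λ.Nonempty := hΛ.2.1.nonempty
  have hvol : volume Λ ≠ ⊤ := PK.volume_ne_top_of_domain hΛ
  obtain ⟨vΛ, hvΛ⟩ : ∃ x, x = (volume Λ).toReal := ⟨_, rfl⟩
  have hv0 : 0 ≤ vΛ := by rw [hvΛ]; exact ENNReal.toReal_nonneg
  have hvv : volume Λ = ENNReal.ofReal vΛ := by rw [hvΛ, ENNReal.ofReal_toReal hvol]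
  -- the slope
  obtain ⟨h, hh0, hh1, hh2, hh3⟩ : ∃ h : ℝ, 0 < h ∧ h ≤ 1 / 8 ∧ h ≤ ε / 4 ∧
      M₀ * (3 * h * vΛ) ≤ ε / 4 := by
    refine ⟨min (min (1 / 8) (ε / 4)) (ε / 4 / (3 * M₀ * vΛ + 1)), by positivity,
      (min_le_left _ _).trans (min_le_left _ _), (min_le_left _ _).trans (min_le_right _ _), ?_⟩
    have h1 : min (min (1 / 8) (ε / 4)) (ε / 4 / (3 * M₀ * vΛ + 1)) ≤ ε / 4 / (3 * M₀ * vΛ + 1) :=
      min_le_right _ _
    have hp : 0 < 3 * M₀ * vΛ + 1 := by positivity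
    calc M₀ * (3 * min (min (1 / 8) (ε / 4)) (ε / 4 / (3 * M₀ * vΛ + 1)) * vΛ)
        ≤ M₀ * (3 * (ε / 4 / (3 * M₀ * vΛ + 1)) * vΛ) := by gcongr
      _ = ε / 4 * (3 * M₀ * vΛ / (3 * M₀ * vΛ + 1)) := by ring
      _ ≤ ε / 4 * 1 := by
          gcongr
          rw [div_le_one hp]
          linarith
      _ = ε / 4 := by ring
  -- the boxes
  obtain ⟨Q, hQ⟩ : ∃ Q : Set V, Q = ⋃ z, bx (lo z) (hi z) (R z) := ⟨_, rfl⟩
  have hQc : IsCompact Q := by rw [hQ]; exact isCompact_iUnion fun _ => H239.isCompact_bx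
  have hQΛ : Q ⊆ Λ := by rw [hQ]; exact iUnion_subset F₁.sub
  have hQmem : ∀ y, y ∈ Q ↔ ∃ z, y ∈ bx (lo z) (hi z) (R z) := fun y => by
    rw [hQ, mem_iUnion]
  obtain ⟨ρ₀, hρ0, hρ1, hρ2⟩ := exists_thin hQc (ε := ENNReal.ofReal (ε / 4 / M₀))
    (by rw [ne_eq, ENNReal.ofReal_eq_zero, not_le]; positivity) (r := min (ε / 4) (r / 4))
    (by positivity)
  have hρε : ρ₀ ≤ ε / 4 := hρ1.trans (min_le_left _ _)
  have hρr : ρ₀ ≤ r / 4 := hρ1.trans (min_le_right _ _)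
  have hthin : ENNReal.ofReal M₀ * volume (cthickening ρ₀ Q \ Q) ≤ ENNReal.ofReal (ε / 4) := by
    calc _ ≤ ENNReal.ofReal M₀ * ENNReal.ofReal (ε / 4 / M₀) := by gcongr
      _ = ENNReal.ofReal (ε / 4) := by
          rw [← ENNReal.ofReal_mul hM₀.le]
          congr 1
          field_simp
  -- the chain
  obtain ⟨τ, c₀, hc₀, hτ0, hτp, hτc, -, hcoll⟩ := H726.exists_coll hΛo hΛb hh0 hh1
    (ρ := fun _ => ρ₀) (LBOn.of_continuous hΛo continuous_const fun _ _ => hρ0)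
  obtain ⟨I, hI⟩ : ∃ I, I = ∫⁻ y in Λ, ENNReal.ofReal (1 / τ y) ^ 3 := ⟨_, rfl⟩
  have hI0 : I ≠ 0 := by rw [hI]; exact H851.weight_ne_zero hΛo hΛne hτc hτp
  refine ⟨τ, min (min c₀ 1) (I / 2), ⟨hτc, hτ0, hτp, ?_⟩, ?_⟩
  · exact (lt_min (lt_min (pos_iff_ne_zero.2 hc₀) one_pos) (ENNReal.half_pos hI0)).ne'
  intro B A bb D D' α W δt hA hD hDΛ hdis hlf hint hα hW hhigh hZcost hδt
  have hBne : Nonempty B := by
    by_contra hB
    rw [not_nonempty_iff] at hB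
    rw [iUnion_of_empty, sdiff_empty, ← hI] at hint
    have h1 : I ≤ 1 := hint.trans ((min_le_left _ _).trans (min_le_right _ _))
    have h2 : I ≤ I / 2 := hint.trans (min_le_right _ _)
    have h3 : I ≠ ⊤ := (h1.trans_lt ENNReal.one_lt_top).ne
    exact absurd h2 (not_le.2 (ENNReal.half_lt_self hI0 h3))
  have hDc : ∀ k, IsCompact (D k) := fun k => (hD k).1
  -- the collapse
  obtain ⟨T, X, hC, hT⟩ := hcoll (Λ \ ⋃ k, (fun x => A k *ᵥ x + bb k) '' D' k)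
    (H696.V0 Λ A bb D)
    (H851.R_open hΛo (fun k => ⟨(hD k).2.1, (hD k).2.2.trans interior_subset⟩) hlf) sdiff_subset
    (hint.trans ((min_le_left _ _).trans (min_le_left _ _))) (H851.V0_closed hΛo hA)
    (fun y hy => ⟨hy.1, fun h => by
      obtain ⟨k, x, hx, hxy⟩ := mem_iUnion.1 h
      exact hy.2 k x ((hD k).2.2 hx) hxy⟩)
  have hGC := H239.gc_of_coll hC (m := 1 + h) le_rfl
  have hG1 := hGC.plates F₁
  have hG := hG1.plates F₂
  obtain ⟨T₁, hT₁⟩ : ∃ T₁ : V → V, T₁ = fam (fun _ => 1) lo hi b R fun _ => 0 := ⟨_, rfl⟩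
  obtain ⟨T₂, hT₂⟩ : ∃ T₂ : V → V, T₂ = fam (fun _ => 2) lo hi b R fun _ => 0 := ⟨_, rfl⟩
  rw [← hT₁] at hG1 hG
  rw [← hT₂] at hG
  obtain ⟨Tt0, hTt0⟩ : ∃ Tt0 : V → V, Tt0 = fun y => T₂ (T₁ (T y)) := ⟨_, rfl⟩
  obtain ⟨Xt, hXt⟩ : ∃ Xt : Set V, Xt = T₂ '' (T₁ '' X ∪ kks lo hi R) ∪ kks lo hi R := ⟨_, rfl⟩
  have hTv : ∀ y, Tt0 y = T₂ (T₁ (T y)) := fun y => by rw [hTt0]
  have hG' : GC (13 * (13 * 16 + 36) + 36) ((1 + 3 * b) * ((1 + 3 * b) * (1 + h)))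
      ((1 + 2 * b) * ((1 + 2 * b) * (1 + h))) Λ (H696.V0 Λ A bb D) Xt Tt0 := by
    rw [hXt, hTt0]; exact hG
  have hoffT : ∀ u, u ∉ Q → T₂ (T₁ u) = u := fun u hu => by
    have hn : ∀ z, u ∉ bx (lo z) (hi z) (R z) := fun z hz => hu ((hQmem u).2 ⟨z, hz⟩)
    rw [hT₁, fam_off hn, hT₂, fam_off hn]
  have honT : ∀ u, u ∈ Q → T₂ (T₁ u) ∈ Q ∧ ‖T₂ (T₁ u) - u‖ ≤ 2 * ε := fun u hu => by
    obtain ⟨z, hz⟩ := (hQmem u).1 hu
    rw [hT₁, hT₂]
    have h1 := fam2_disp F₁ F₂ hz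
    exact ⟨(hQmem _).2 ⟨z, h1.1⟩, h1.2.trans (by linarith [hR z])⟩
  have hdisp : ∀ y ∈ Λ, ‖Tt0 y - y‖ ≤ 9 / 4 * ε := fun y hy => by
    have h1 := hT y hy
    rw [hTv]
    by_cases hz : T y ∈ Q
    · have h3 := (honT _ hz).2
      have e1 : T₂ (T₁ (T y)) - y = (T₂ (T₁ (T y)) - T y) + (T y - y) := by abel
      rw [e1]
      refine (norm_add_le _ _).trans ?_
      linarith
    · rw [hoffT _ hz]
      linarith
  -- the zone of the segments
  obtain ⟨Zo, hZo⟩ : ∃ Zo : Set V, Zo = {y | y ∈ Λ ∧ T y ∈ Q} := ⟨_, rfl⟩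
  -- the collapsed set
  have hXsub : ∀ y ∈ Λ, Tt0 y ∈ Xt → T y ∈ X ∨ T y ∈ Q := by
    intro y hy hX
    by_cases hz : T y ∈ Q
    · exact Or.inr hz
    · left
      rw [hTv, hoffT _ hz, hXt] at hX
      have hkk : ∀ u ∈ kks lo hi R, u ∈ Q := fun u hu => by
        obtain ⟨z, hz⟩ := mem_iUnion.1 hu
        exact (hQmem u).2 ⟨z, hz.1⟩
      rcases hX with ⟨u, hu, hue⟩ | hX
      · have hQiff2 : ∀ a, T₂ a ∈ Q ↔ a ∈ Q := fun a => by
          rw [hQmem, hQmem, hT₂]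
          exact exists_congr fun z => F₂.fam_mem F₂.num0 z
        have hQiff1 : ∀ a, T₁ a ∈ Q ↔ a ∈ Q := fun a => by
          rw [hQmem, hQmem, hT₁]
          exact exists_congr fun z => F₁.fam_mem F₁.num0 z
        have huQ : u ∉ Q := fun h => hz (by rw [← hue]; exact (hQiff2 u).2 h)
        have hT2u : T₂ u = u := by
          rw [hT₂]
          exact fam_off fun z hz' => huQ ((hQmem u).2 ⟨z, hz'⟩)
        rw [hT2u] at hue
        rcases hu with ⟨x, hx, hxu⟩ | hu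
        · have hxQ : x ∉ Q := fun h => huQ (by rw [← hxu]; exact (hQiff1 x).2 h)
          have hT1x : T₁ x = x := by
            rw [hT₁]
            exact fam_off fun z hz' => hxQ ((hQmem x).2 ⟨z, hz'⟩)
          rw [hT1x] at hxu
          rw [← hue, ← hxu]
          exact hx
        · exact absurd (hkk u hu) huQ
      · exact absurd (hkk _ hX) hz
  -- the cost
  have hcost : ∑' k, α k * volume {x | x ∈ D k ∧ A k *ᵥ x + bb k ∈
      {y | y ∈ Λ ∧ Tt0 y ∈ Xt} ∪ Zo} + ENNReal.ofReal (ε / 4) ≤ ENNReal.ofReal (3 * ε) := by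
    obtain ⟨E, hE⟩ : ∃ E : Set V, E = {y | y ∈ Λ ∧ T y ∈ X} ∪ ({y | y ∈ Λ ∧ T y ∈ Q} \ Q) :=
      ⟨_, rfl⟩
    have hm1 : MeasurableSet {y | y ∈ Λ ∧ T y ∈ Q} :=
      hΛo.measurableSet.inter (hC.continuous.measurable hQc.measurableSet)
    have hEm : MeasurableSet E := by
      rw [hE]
      exact (H851.measurableSet_collapsed hC).union (hm1.diff hQc.measurableSet)
    have hEv : ENNReal.ofReal M₀ * volume E ≤ ENNReal.ofReal (ε / 2) := by
      have h3 : ENNReal.ofReal M₀ * volume {y | y ∈ Λ ∧ T y ∈ X} ≤ ENNReal.ofReal (ε / 4) := by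
        calc _ ≤ ENNReal.ofReal M₀ * (ENNReal.ofReal (3 * h) * volume Λ) := by
              gcongr; exact H851.volume_collapsed hC hvol
          _ = ENNReal.ofReal (M₀ * (3 * h * vΛ)) := by
              rw [hvv, ← ENNReal.ofReal_mul (by positivity), ← ENNReal.ofReal_mul hM₀.le]
          _ ≤ _ := ENNReal.ofReal_le_ofReal hh3
      have h4 : {y | y ∈ Λ ∧ T y ∈ Q} \ Q ⊆ cthickening ρ₀ Q \ Q := by
        rintro y ⟨⟨hy1, hy2⟩, hy3⟩
        refine ⟨mem_cthickening_of_dist_le y (T y) ρ₀ Q hy2 ?_, hy3⟩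
        rw [dist_comm, dist_eq_norm]
        exact hT y hy1
      calc ENNReal.ofReal M₀ * volume E ≤ ENNReal.ofReal M₀ *
            (volume {y | y ∈ Λ ∧ T y ∈ X} + volume (cthickening ρ₀ Q \ Q)) := by
            gcongr
            rw [hE]
            exact (measure_union_le _ _).trans (add_le_add le_rfl (measure_mono h4))
        _ = ENNReal.ofReal M₀ * volume {y | y ∈ Λ ∧ T y ∈ X} +
            ENNReal.ofReal M₀ * volume (cthickening ρ₀ Q \ Q) := mul_add _ _ _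
        _ ≤ ENNReal.ofReal (ε / 4) + ENNReal.ofReal (ε / 4) := add_le_add h3 hthin
        _ = ENNReal.ofReal (ε / 2) := by
            rw [← ENNReal.ofReal_add (by positivity) (by positivity)]
            congr 1
            ring
    have h2 := H851.sum_cost (A := A) (b := bb) hA hDc hdis hM₀ hhigh hEm
    have h3 : ∀ k, α k * volume {x | x ∈ D k ∧ A k *ᵥ x + bb k ∈
        {y | y ∈ Λ ∧ Tt0 y ∈ Xt} ∪ Zo} ≤
        α k * volume {x | x ∈ D k ∧ afm (A k) (bb k) x ∈ E} +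
        α k * volume {x | x ∈ D k ∧ A k *ᵥ x + bb k ∈ ⋃ z, bx (lo z) (hi z) (R z)} := by
      intro k
      rw [← mul_add]
      refine mul_le_mul' le_rfl ((measure_mono ?_).trans (measure_union_le _ _))
      rintro x ⟨hx, hx2⟩
      have h5 : A k *ᵥ x + bb k ∈ Λ ∧ (T (A k *ᵥ x + bb k) ∈ X ∨ T (A k *ᵥ x + bb k) ∈ Q) := by
        rcases hx2 with hx2 | hx2
        · exact ⟨hx2.1, hXsub _ hx2.1 hx2.2⟩
        · rw [hZo] at hx2
          exact ⟨hx2.1, Or.inr hx2.2⟩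
      by_cases hxQ : A k *ᵥ x + bb k ∈ Q
      · right
        exact ⟨hx, by rw [← hQ]; exact hxQ⟩
      · left
        refine ⟨hx, ?_⟩
        rw [hE]
        rcases h5.2 with h6 | h6
        · exact Or.inl ⟨h5.1, h6⟩
        · exact Or.inr ⟨⟨h5.1, h6⟩, hxQ⟩
    calc _ ≤ (∑' k, (α k * volume {x | x ∈ D k ∧ afm (A k) (bb k) x ∈ E} +
          α k * volume {x | x ∈ D k ∧ A k *ᵥ x + bb k ∈ ⋃ z, bx (lo z) (hi z) (R z)})) +
          ENNReal.ofReal (ε / 4) := add_le_add (ENNReal.tsum_le_tsum h3) le_rfl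
      _ ≤ ((ENNReal.ofReal (ε / 2) + ENNReal.ofReal ε) + ENNReal.ofReal ε) +
          ENNReal.ofReal (ε / 4) := by
          rw [ENNReal.tsum_add]
          exact add_le_add (add_le_add (h2.trans (add_le_add hEv le_rfl)) hZcost) le_rfl
      _ = ENNReal.ofReal (ε / 2 + ε + ε + ε / 4) := by
          rw [← ENNReal.ofReal_add (by positivity) (by positivity),
            ← ENNReal.ofReal_add (by positivity) (by positivity),
            ← ENNReal.ofReal_add (by positivity) (by positivity)]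
      _ ≤ _ := ENNReal.ofReal_le_ofReal (by linarith)
  -- the generation
  obtain ⟨m₁, hm₁⟩ : ∃ m₁ : ℕ, (1:ℝ) / 2 ^ m₁ ≤ 3 * ε := by
    obtain ⟨n, hn⟩ := exists_pow_lt_of_lt_one (show (0:ℝ) < 3 * ε by positivity)
      (show (1 / 2 : ℝ) < 1 by norm_num)
    exact ⟨n, by rw [← _root_.one_div_pow]; exact hn.le⟩
  have hTtc : Continuous Tt0 := hG'.cont
  have hTtm : MapsTo Tt0 Λ Λ := hG'.maps
  have hTlip := hG'.lip
  obtain ⟨m, s, ρ, hm, hρ, hsT, hsize, hmain⟩ := H851.exists_tgt_gen (N' := 17) (r0 := r0)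
    (L := L) (Lc := Lc) (j := j) (α := α) (W := W) (δt := δt) (Zo := Zo) (ε := 3 * ε) (ε₁ := 1)
    (εT := 9 / 4 * ε) (εC := ε / 4) (εs := ε / 4) (Cg := 6) (K := Q ∪ Tt0 '' Kc) hG'
    (by norm_num) (by nlinarith [mul_pos hb0 hh0]) (by norm_num) (by unfold kp; norm_num) hA hDc
    hDΛ hdis hlf hα hW hδt hrL v (hQc.union (hKcc.image hTtc))
    (union_subset hQΛ ((image_mono hKc).trans hTtm.image_subset)) (by positivity) one_pos
    (by positivity) (by positivity) (by nlinarith [mul_pos hb0 hh0]) (by norm_num)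
    (by rw [hZo]; exact fun y hy => hy.1)
    (fun y hy hX hyZ => by
      rw [hZo] at hyZ
      have hno : T y ∉ Q := fun hz => hyZ ⟨hy, hz⟩
      have hTX : T y ∉ X := fun h1 => hX (by
        rw [hTv, hoffT _ hno, hXt]
        left
        have hu : T y ∈ T₁ '' X := ⟨T y, h1, by
          rw [hT₁]
          exact fam_off fun z hz' => hno ((hQmem _).2 ⟨z, hz'⟩)⟩
        exact ⟨T y, Or.inl hu, by
          rw [hT₂]
          exact fam_off fun z hz' => hno ((hQmem _).2 ⟨z, hz'⟩)⟩)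
      obtain ⟨w, hw⟩ := hC.aff {T y} (by
        rintro _ rfl
        exact ⟨hC.maps hy, hTX⟩) isPreconnected_singleton
      have h2 := hw y rfl
      have h3 : ∀ᶠ y' in 𝓝 y, T y' ∉ Q :=
        hC.continuous.continuousAt.eventually (hQc.isClosed.isOpen_compl.mem_nhds hno)
      filter_upwards [h2, h3] with y' h4 h5
      rw [hTv, hTv, hoffT _ h5, hoffT _ hno, h4, h2.self_of_nhds]
      have e1 : ((1 + h) • y' - w) - ((1 + h) • y - w) - (y' - y) = h • (y' - y) := by module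
      rw [e1, norm_smul, Real.norm_of_nonneg hC.h0]
      gcongr
      linarith)
    hdisp (by linarith) hcost (fun k => hLc1 _) (fun k => hLc2 _) hj (max m₁ jt)
  have hmp : (0:ℝ) < 1 / 2 ^ m := by positivity
  have hm1 : m₁ ≤ m := (le_max_left _ _).trans hm
  have hm2 : jt ≤ m := (le_max_right _ _).trans hm
  have hmε : (1:ℝ) / 2 ^ m ≤ 3 * ε := by
    refine le_trans ?_ hm₁
    gcongr
    norm_num
  -- the squeeze
  obtain ⟨lam, hlam0, hlam1, hlam2, hlam3⟩ : ∃ lam : ℝ, 0 < lam ∧ 2 * lam ≤ c / 2 ^ m ∧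
      lam ≤ c / 2 ^ m ∧ lam ≤ 1 / 32 / 2 ^ m := by
    refine ⟨min (c / 2) (1 / 32) / 2 ^ m, by positivity, ?_, ?_, ?_⟩
    · calc 2 * (min (c / 2) (1 / 32) / 2 ^ m) ≤ 2 * (c / 2 / 2 ^ m) := by
            gcongr; exact min_le_left _ _
        _ = c / 2 ^ m := by ring
    · calc min (c / 2) (1 / 32) / 2 ^ m ≤ c / 2 / 2 ^ m := by gcongr; exact min_le_left _ _
        _ ≤ c / 2 ^ m := by gcongr; linarith
    · gcongr
      exact min_le_right _ _
  obtain ⟨g, ⟨κ₁, κ₂, γ, hκ₁, hκ₂, hgγ, hγ, hglip⟩, c', Mi, bi, κ, e, n, wd, Ξ, Tt, S, κ', n',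
      w', HT, hcC⟩ :=
    hmain (fun g => ∃ (κ₁ κ₂ : ι → ℝ) (γ : ConHomeo Λ Λ),
      (∀ z, Num b (R z) (κ₁ z) ∧ 0 < κ₁ z ∧ κ₁ z * R z ≤ lam) ∧
      (∀ z, Num b (R z) (κ₂ z) ∧ 0 < κ₂ z ∧ κ₂ z * R z ≤ lam) ∧
      (∀ y, g.toFun y =
        fam (fun _ => 2) lo hi b R κ₂ (fam (fun _ => 1) lo hi b R κ₁ (γ.toFun y))) ∧
      (∀ y ∈ Λ, ‖γ.toFun y - T y‖ ≤ r / 4) ∧
      ∀ y y', ‖toLp 2 (g.toFun y - g.toFun y')‖ ≤ (1 + 3 * ε) * ‖toLp 2 (y - y')‖)
      (fun δ' ε' hδ' hε' => by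
        obtain ⟨κ₂, δ₂, ε₂, h1, h2, h3, h4⟩ :=
          H851.apx_plates hG1 F₂ hδ' (lt_min hε' hε) hlam0
        obtain ⟨κ₁, δ₁, ε₁, k1, k2, k3, k4⟩ := H851.apx_plates hGC F₁ h2 h3 hlam0
        obtain ⟨γ, hγ⟩ := H851.exists_isApx hGC.approx
          (k2.min (LBOn.of_continuous hΛo (continuous_const (y := r / 4)) fun _ _ =>
            by positivity)) k3
        obtain ⟨g₁, hg11, hg12⟩ := k4 γ (hγ.mono hC.maps (fun y _ => min_le_left _ _) le_rfl)
        rw [← hT₁] at hg12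
        obtain ⟨g₂, hg21, hg22⟩ := h4 g₁ hg12
        rw [← hT₂] at hg22
        refine ⟨g₂, ?_, κ₁, κ₂, γ, k1, h1, fun y => by rw [hg21, hg11], fun y hy =>
          (hγ.close y hy).trans (min_le_right _ _), fun y y' => ?_⟩
        · rw [hXt, hTt0]
          exact hg22.mono hG.maps (fun y _ => le_rfl) (min_le_left _ _)
        · refine (hg22.lip y y').trans (mul_le_mul_of_nonneg_right ?_ (norm_nonneg _))
          have e1 : min ε' ε ≤ ε := min_le_right _ _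
          have e2 : (1 + 3 * b) * ((1 + 3 * b) * (1 + h)) ≤ 1 + ε := by
            have e3 : (1 + 3 * b) * (1 + 3 * b) ≤ 1 + 7 * b := by nlinarith
            calc (1 + 3 * b) * ((1 + 3 * b) * (1 + h)) =
                ((1 + 3 * b) * (1 + 3 * b)) * (1 + h) := by ring
              _ ≤ (1 + 7 * b) * (1 + h) := by gcongr
              _ = 1 + 7 * b + h + 7 * b * h := by ring
              _ ≤ 1 + 7 * b + h + 1 * h := by gcongr; linarith
              _ ≤ 1 + ε := by linarith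
          linarith)
  -- facts on `g` and `Tt`
  have hoff0 : ∀ x ∉ Λ, s x ≤ 0 := fun x hx => by
    have h1 := S.hρ.off x hx
    rw [hρ] at h1
    rcases min_le_iff.1 h1 with h2 | h2
    · linarith
    · linarith
  have hgen : ∀ t : Idx, IsTile ρ 0 t.1 t.2 → (1:ℝ) / 2 ^ t.1 ≤ 1 / 2 ^ m := by
    rintro ⟨m', z'⟩ ⟨h1, -⟩
    have hne : (fun k => (0:V) k + z' k / 2 ^ m' : V) ∈ dyc 0 m' z' := fun k => ⟨le_rfl, by
      have : (z' k : ℝ) / 2 ^ m' ≤ (z' k + 1) / 2 ^ m' := by gcongr; linarith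
      linarith⟩
    have h2 := (h1 _ hne).trans (le_of_eq (hρ _))
    exact h2.trans (min_le_right _ _)
  have hcub : ∀ u : V, ∃ z : Fin 3 → ℤ, u ∈ dyc 0 m z := fun u => by
    refine ⟨fun i => ⌊u i * 2 ^ m⌋, fun i => ?_⟩
    have h2m : (0:ℝ) < 2 ^ m := by positivity
    rw [Pi.zero_apply, zero_add, zero_add, div_le_iff₀ h2m, le_div_iff₀ h2m]
    exact ⟨Int.floor_le _, (Int.lt_floor_add_one _).le⟩
  -- in a cube of generation `m` near `K`
  have hcl : ∀ y ∈ Λ, ‖g.toFun y - Tt0 y‖ ≤ 1 / 16 * (1 / 2 ^ m) := by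
    intro y hy
    obtain ⟨t, ht⟩ := S.exists_tile' (g.mapsTo hy)
    have h1 := S.near8 y hy t ht
    have h2 := hgen t.1 t.2
    rw [H851.two_st] at h2
    linarith
  have htl : ∀ y ∈ Λ, (∃ u ∈ Q ∪ Tt0 '' Kc, ‖g.toFun y - u‖ ≤ 8 / 2 ^ m) →
      ∃ z, IsTile ρ 0 m z ∧ g.toFun y ∈ dyc 0 m z ∧ Tt.toFun y ∈ dyc 0 m z := by
    rintro y hy ⟨u, hu, huy⟩
    obtain ⟨z, hz⟩ := hcub (g.toFun y)
    have ht := hsize z ⟨u, hu, _, hz, huy⟩
    refine ⟨z, ht, hz, ?_⟩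
    refine (S.tile_iff hy ⟨(m, z), ht⟩).2 ?_
    rw [cB_eq]
    exact hz
  have hdyc : ∀ (z : Fin 3 → ℤ) (u u' : V), u ∈ dyc 0 m z → u' ∈ dyc 0 m z →
      ‖u - u'‖ ≤ 1 / 2 ^ m := by
    intro z u u' hu hu'
    rw [pi_norm_le_iff_of_nonneg hmp.le]
    intro i
    rw [Pi.sub_apply, Real.norm_eq_abs, abs_le]
    have a := hu i
    have b := hu' i
    have e : ((z i : ℝ) + 1) / 2 ^ m = z i / 2 ^ m + 1 / 2 ^ m := by ring
    rw [e] at a b
    constructor <;> linarith [a.1, a.2, b.1, b.2]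
  have e8 : (8:ℝ) / 2 ^ m = 8 * (1 / 2 ^ m) := by ring
  have e4 : (4:ℝ) / 2 ^ m = 4 * (1 / 2 ^ m) := by ring
  have hKfar : ∀ y ∈ Kc, ‖Tt.toFun y - g.toFun y‖ ≤ 1 / 2 ^ m := by
    intro y hy
    obtain ⟨z, -, h1, h2⟩ := htl y (hKc hy) ⟨Tt0 y, Or.inr ⟨y, hy, rfl⟩, by
      rw [e8]; linarith [hcl y (hKc hy)]⟩
    exact hdyc z _ _ h2 h1
  refine ⟨ρ, _, _, κ', n', w', _, _, _, Tt, fun _ => c / 2 ^ m, HT,
    fun x _ => ⟨c / 2 ^ m, by positivity, Eventually.of_forall fun _ _ => le_rfl⟩, m, g,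
    fun _ => rfl,
    { lip := fun y _ y' _ => hglip y y'
      close := ?_
      far := ?_
      mtε := hmε
      bdT := ?_
      grid := ?_
      tile := ?_
      tube := ?_ }⟩
  · -- close
    intro y hy
    have h1 := S.near y hy
    have h2 := hsT y hy
    have h3 := hdisp y hy
    have e1 : g.toFun y - y = (g.toFun y - Tt0 y) + (Tt0 y - y) := by abel
    rw [e1]
    refine (norm_add_le _ _).trans ?_
    linarith
  · -- far
    intro y hy
    have e2 : (2:ℝ) / 2 ^ m = 2 * (1 / 2 ^ m) := by ring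
    have := hKfar y hy
    rw [e2]
    linarith
  · -- boundary
    intro η hη
    exact tp_bd hΛb S hoff0 hG'.C0 hTlip hG'.off hη
  · -- grid
    intro z i hi0
    obtain ⟨t, ht⟩ := hgrid z i hi0
    refine ⟨t * 2 ^ (m - jt), ?_⟩
    rw [ht]
    push_cast
    have e1 : (2:ℝ) ^ m = 2 ^ (m - jt) * 2 ^ jt := by
      rw [← pow_add, Nat.sub_add_cancel hm2]
    rw [e1]
    field_simp
  · -- tiles
    rintro y hy z ⟨u, hu, huy⟩
    refine hsize z ⟨Tt0 y, Or.inr ⟨y, hy, rfl⟩, u, hu, ?_⟩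
    have h1 := hKfar y hy
    have h2 := hcl y (hKc hy)
    have e1 : u - Tt0 y = -(Tt.toFun y - u) + (Tt.toFun y - g.toFun y) +
        (g.toFun y - Tt0 y) := by abel
    rw [e1, e8]
    rw [e4] at huy
    refine (norm_add₃_le).trans ?_
    rw [norm_neg]
    linarith
  · -- tube
    intro z y hy htube
    have hyΛ := hKc hy
    have hγy : ‖γ.toFun y - y‖ ≤ r / 2 := by
      have h1 := hγ y hyΛ
      have h2 := hT y hyΛ
      have e1 : γ.toFun y - y = (γ.toFun y - T y) + (T y - y) := by abel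
      rw [e1]
      refine (norm_add_le _ _).trans ?_
      linarith
    have hdd : ∀ i, dd i (lo z) (hi z) (γ.toFun y) ≤ dd i (lo z) (hi z) y + r / 2 := by
      intro i
      rw [H239.dd_le (by linarith [H239.dd_nonneg (l := i) (lo := lo z) (hi := hi z) y])]
      rintro ⟨a, sg⟩ ha
      have h1 : fn (lo z) (hi z) (a, sg) y ≤ dd i (lo z) (hi z) y := H239.fn_le_dd ha y
      have h2 : |γ.toFun y a - y a| ≤ r / 2 := by
        have := (norm_le_pi_norm (γ.toFun y - y) a).trans hγy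
        rwa [Pi.sub_apply, Real.norm_eq_abs] at this
      have h3 := abs_le.1 h2
      unfold fn at h1 ⊢
      split_ifs at h1 ⊢ <;> simp only at * <;> linarith [h3.1, h3.2]
    have hfull : ∀ i, i ≠ 0 → |γ.toFun y i - lo z i| ≤
        b * (R z - dd i (lo z) (hi z) (γ.toFun y)) := by
      intro i hi0
      have h1 := htube i hi0
      have h2 : |γ.toFun y i - y i| ≤ r / 2 := by
        have := (norm_le_pi_norm (γ.toFun y - y) i).trans hγy
        rwa [Pi.sub_apply, Real.norm_eq_abs] at this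
      have h3 : |γ.toFun y i - lo z i| ≤ |γ.toFun y i - y i| + |y i - lo z i| := by
        have e1 : γ.toFun y i - lo z i = (γ.toFun y i - y i) + (y i - lo z i) := by ring
        rw [e1]
        exact abs_add_le _ _
      have h4 : b * (dd i (lo z) (hi z) (γ.toFun y)) ≤
          b * (dd i (lo z) (hi z) y + r / 2) := by
        gcongr
        exact hdd i
      nlinarith
    obtain ⟨g1, g2, g3, g4⟩ := fam_core2 F₁ F₂ (fun z => (hκ₁ z).1) (fun z => (hκ₂ z).1) hfull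
      (hgγ y)
    have hgQ : g.toFun y ∈ Q := (hQmem _).2 ⟨z, g1⟩
    obtain ⟨zt', hz1, hz2, hz3⟩ := htl y hyΛ ⟨g.toFun y, Or.inl hgQ, by
      rw [sub_self, norm_zero]; positivity⟩
    have hwall : ∀ i, i ≠ 0 → |g.toFun y i - lo z i| ≤ lam := by
      intro i hi0
      have : i = 1 ∨ i = 2 := eq_one_or_two hi0
      rcases this with h | h
      · rw [h]; exact g3.trans (hκ₁ z).2.2
      · rw [h]; exact g4.trans (hκ₂ z).2.2
    have hgr : ∀ i, i ≠ 0 → ∃ t : ℤ, lo z i = t / 2 ^ m := by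
      intro i hi0
      obtain ⟨t, ht⟩ := hgrid z i hi0
      refine ⟨t * 2 ^ (m - jt), ?_⟩
      rw [ht]
      push_cast
      have e1 : (2:ℝ) ^ m = 2 ^ (m - jt) * 2 ^ jt := by
        rw [← pow_add, Nat.sub_add_cancel hm2]
      rw [e1]
      field_simp
    refine ⟨fun i hi0 => ?_, fun w hw1 hw2 => ?_⟩
    · obtain ⟨t, ht⟩ := hgr i hi0
      have h1 := (tp_wall S hyΛ hz1 hz2 (j := i) (k := t) (by rw [← ht]; exact hwall i hi0)
        hlam3).1
      rw [ht]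
      exact h1.trans hlam2
    · obtain ⟨t, ht⟩ := hgr 1 (by decide)
      exact (tp_wall S hyΛ hz1 hz2 (j := 1) (k := t) (by rw [← ht]; exact hwall 1 (by decide))
        hlam3).2 c 0 w hc hlam1 hw1 hw2

end Vale.Agent.P073.H340
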