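import Vale.Agent.P073.H851.TgtQ
import Vale.Agent.P073.H239.FSpec1

/-!
# P073, block B10, rank one: the target with segments, part 1 (the tools)

* `tp_wall`: near a wall of a tile the total target homeomorphism stays near the wall and keeps the
  coordinates in the middle;
* `fam_core2`: the two squeezes in the full zone of a segment;
* `fam2_disp`: displacement of the two collapses;
* `tp_bd`: the total target homeomorphism is close to the identity at the boundary;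
* `exists_thin`: thin neighbourhoods of compact sets have small volume outside the set.
-/

open Set Metric Topology Filter WithLp MeasureTheory Matrix
open scoped ENNReal

namespace Vale.Agent.P073.H340

open _root_.P073
open _root_.P073.Net (dyc dyo IsTile SizeFn)
open Vale.Agent.P073.St (V)
open Vale.Agent.P073.AB (Idx)
open Vale.Agent.P073.H471 (Cubes TI zt st cB_eq B_eq cubes_tiles st_pos)
open Vale.Agent.P073.H726 (LBOn Coll)
open Vale.Agent.P073.H239 (GC PFam fam kks Num bx dd DD fn fam_off)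
open Vale.Agent.P073.H851 (M3 TP IsApx lip_sup_of_eu)

/-- **near a wall** of a tile of generation `m` -/
theorem tp_wall {Λ : Set V} {ρ s : V → ℝ} {K : Type*} {V₀ X : Set V} {N : ℕ}
    {η κ₀ : ℝ} {T : V → V} {c : TI ρ (0 : V) → V} {Mi : TI ρ (0 : V) → M3}
    {bi : TI ρ (0 : V) → V} {g : ConHomeo Λ Λ} {A : K → M3} {b : K → V} {D : K → Set V}
    {r0 L : K → ℝ} {v : V} {Cg : ℝ} {κ : TI ρ (0 : V) → K} {e : TI ρ (0 : V) → ℝ}
    {n : TI ρ (0 : V) → ℕ} {wd : TI ρ (0 : V) → Fin 3 → ℤ} {Ξ : TI ρ (0 : V) → V → V}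
    {Tt : ConHomeo Λ Λ} (S : TP N κ₀ Λ V₀ X T s η c Mi bi g A b D r0 L v Cg κ e n wd Ξ Tt)
    {y : V} (hy : y ∈ Λ) {m : ℕ} {z : Fin 3 → ℤ} (ht : IsTile ρ (0 : V) m z)
    (hgy : g.toFun y ∈ dyc 0 m z) {j : Fin 3} {k : ℤ} {lam : ℝ}
    (hj : |g.toFun y j - k / 2 ^ m| ≤ lam) (hl : lam ≤ 1 / 32 / 2 ^ m) :
    |Tt.toFun y j - k / 2 ^ m| ≤ lam ∧
      ∀ (c₁ : ℝ) (i : Fin 3) (k' : ℤ), 0 < c₁ → 2 * lam ≤ c₁ / 2 ^ m →
        (k' + c₁) / 2 ^ m ≤ g.toFun y i → g.toFun y i ≤ (k' + 1 - c₁) / 2 ^ m →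
        Tt.toFun y i = g.toFun y i := by
  have hp : (0:ℝ) < 1 / 2 ^ m := by positivity
  have h2m : (0:ℝ) < 2 ^ m := by positivity
  have hlam : 0 ≤ lam := (abs_nonneg _).trans hj
  obtain ⟨t, ht1⟩ : ∃ t : TI ρ (0 : V), t.1 = (m, z) := ⟨⟨(m, z), ht⟩, rfl⟩
  have hσ : st ρ (0 : V) t = 1 / 2 * (1 / 2 ^ m) := by unfold st; rw [ht1]; ring
  have hzt : ∀ j, zt ρ (0 : V) t j = z j / 2 ^ m + 1 / 2 * (1 / 2 ^ m) := fun j => by
    have : zt ρ (0 : V) t j = H73.ctr 0 t.1.1 t.1.2 j := rfl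
    rw [this, ht1]
    unfold H73.ctr
    simp only [Pi.zero_apply]
    ring
  have hl' : lam ≤ 1 / 32 * (1 / 2 ^ m) := by
    have : (1:ℝ) / 32 / 2 ^ m = 1 / 32 * (1 / 2 ^ m) := by ring
    rwa [this] at hl
  have hball : g.toFun y ∈ closedBall (zt ρ (0 : V) t) (st ρ (0 : V) t) := by
    rw [cB_eq, ht1]; exact hgy
  have hcoord : ∀ i, (z i : ℝ) / 2 ^ m ≤ g.toFun y i ∧
      g.toFun y i ≤ z i / 2 ^ m + 1 / 2 ^ m := by
    intro i
    have := hgy i
    rw [Pi.zero_apply, zero_add, zero_add] at this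
    have e : ((z i : ℝ) + 1) / 2 ^ m = z i / 2 ^ m + 1 / 2 ^ m := by ring
    rw [e] at this
    exact this
  have hj' := abs_le.1 hj
  -- the wall is one of the two walls
  have hk : k = z j ∨ k = z j + 1 := by
    have h1 : (k:ℝ) / 2 ^ m ≤ z j / 2 ^ m + 1 / 2 ^ m + 1 / 32 * (1 / 2 ^ m) := by
      linarith [(hcoord j).2, hj'.1]
    have h2 : (z j:ℝ) / 2 ^ m - 1 / 32 * (1 / 2 ^ m) ≤ k / 2 ^ m := by
      linarith [(hcoord j).1, hj'.2]
    have h3 : (k:ℝ) ≤ z j + 1 + 1 / 32 := by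
      have e1 : (z j:ℝ) / 2 ^ m + 1 / 2 ^ m + 1 / 32 * (1 / 2 ^ m) =
        ((z j:ℝ) + 1 + 1 / 32) / 2 ^ m := by ring
      rw [e1] at h1
      exact (div_le_div_iff_of_pos_right h2m).1 h1
    have h4 : (z j:ℝ) - 1 / 32 ≤ k := by
      have e1 : (z j:ℝ) / 2 ^ m - 1 / 32 * (1 / 2 ^ m) = ((z j:ℝ) - 1 / 32) / 2 ^ m := by ring
      rw [e1] at h2
      exact (div_le_div_iff_of_pos_right h2m).1 h2
    have h5 : k ≤ z j + 1 := by
      by_contra hn
      push Not at hn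
      have : (z j : ℝ) + 1 + 1 ≤ k := by exact_mod_cast hn
      linarith
    have h6 : z j ≤ k := by
      by_contra hn
      push Not at hn
      have : (k : ℝ) + 1 ≤ z j := by exact_mod_cast hn
      linarith
    omega
  have hT0 : Tt.toFun y ∈ closedBall (zt ρ (0 : V) t) (st ρ (0 : V) t) :=
    (S.tt.cube y hy t).2 hball
  have hT1 : ‖Tt.toFun y - zt ρ (0 : V) t‖ ≤ st ρ (0 : V) t := by
    rwa [mem_closedBall, dist_eq_norm] at hT0
  have hT2 := (norm_le_pi_norm (Tt.toFun y - zt ρ (0 : V) t) j).trans hT1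
  rw [Pi.sub_apply, Real.norm_eq_abs, abs_le, hzt, hσ] at hT2
  have hdist : st ρ (0 : V) t - lam ≤ |g.toFun y j - zt ρ (0 : V) t j| := by
    rw [hzt, hσ]
    rcases hk with h | h
    · rw [h] at hj'
      have e1 : g.toFun y j - (z j / 2 ^ m + 1 / 2 * (1 / 2 ^ m)) ≤ 0 := by linarith [hj'.2]
      rw [abs_of_nonpos e1]
      linarith [hj'.2]
    · rw [h] at hj'
      push_cast at hj'
      have e2 : ((z j : ℝ) + 1) / 2 ^ m = z j / 2 ^ m + 1 / 2 ^ m := by ring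
      rw [e2] at hj'
      have e1 : 0 ≤ g.toFun y j - (z j / 2 ^ m + 1 / 2 * (1 / 2 ^ m)) := by linarith [hj'.1]
      rw [abs_of_nonneg e1]
      linarith [hj'.1]
  have hnorm : st ρ (0 : V) t - lam ≤ ‖g.toFun y - zt ρ (0 : V) t‖ := by
    have h1 := norm_le_pi_norm (g.toFun y - zt ρ (0 : V) t) j
    rw [Pi.sub_apply, Real.norm_eq_abs] at h1
    exact hdist.trans h1
  have h15 : 15 / 16 * st ρ (0 : V) t ≤ ‖g.toFun y - zt ρ (0 : V) t‖ := by
    refine le_trans ?_ hnorm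
    rw [hσ]
    linarith
  constructor
  · have hgr := S.tt.grow t y hy j h15 hball
    rw [hzt] at hgr
    rcases hk with h | h
    · rw [h] at hj' ⊢
      have h4 := hgr.2 (by linarith [hj'.2])
      rw [abs_le]
      constructor <;> linarith [hT2.1, hj'.2]
    · rw [h] at hj' ⊢
      push_cast at hj' ⊢
      have e2 : ((z j : ℝ) + 1) / 2 ^ m = z j / 2 ^ m + 1 / 2 ^ m := by ring
      rw [e2] at hj' ⊢
      have h4 := hgr.1 (by linarith [hj'.1])
      rw [abs_le]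
      constructor <;> linarith [hT2.2, hj'.1]
  · intro c₁ i k' hc₁ hc hi1 hi2
    have hc1 : 0 < c₁ / 2 ^ m := by positivity
    have e1 : ((k' : ℝ) + c₁) / 2 ^ m = k' / 2 ^ m + c₁ / 2 ^ m := by ring
    have e2 : ((k' : ℝ) + 1 - c₁) / 2 ^ m = k' / 2 ^ m + 1 / 2 ^ m - c₁ / 2 ^ m := by ring
    rw [e1] at hi1
    rw [e2] at hi2
    have hki : k' = z i := by
      have h1 : (k':ℝ) / 2 ^ m < (z i + 1) / 2 ^ m := by
        have e : ((z i : ℝ) + 1) / 2 ^ m = z i / 2 ^ m + 1 / 2 ^ m := by ring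
        rw [e]
        linarith [(hcoord i).2]
      have h2 : (z i:ℝ) / 2 ^ m < (k' + 1) / 2 ^ m := by
        have e : ((k' : ℝ) + 1) / 2 ^ m = k' / 2 ^ m + 1 / 2 ^ m := by ring
        rw [e]
        linarith [(hcoord i).1]
      have h3 : (k':ℝ) < z i + 1 := (div_lt_div_iff_of_pos_right h2m).1 h1
      have h4 : (z i:ℝ) < k' + 1 := (div_lt_div_iff_of_pos_right h2m).1 h2
      have h5 : k' < z i + 1 := by exact_mod_cast h3
      have h6 : z i < k' + 1 := by exact_mod_cast h4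
      omega
    refine S.tt.tang t y hy i h15 hball ?_
    rw [hzt, hσ, ← hki]
    rw [hσ] at hnorm
    rw [abs_le]
    constructor <;> linarith

/-! ### The two squeezes -/

section fams

variable {Λ : Set V} {ι : Type*} {b : ℝ} {lo hi : ι → V} {R : ι → ℝ}

theorem eq_one_or_two {i : Fin 3} (h : i ≠ 0) : i = 1 ∨ i = 2 := by
  revert i; decide

theorem mem_bx_abs {lo hi : V} {R : ℝ} {l : Fin 3} (h : lo l = hi l) {y : V}
    (hy : y ∈ bx lo hi R) : |y l - lo l| ≤ R := by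
  have h3 : DD lo hi y ≤ R := hy
  rw [H239.DD_eq h] at h3
  exact (le_max_left _ _).trans h3

/-- **the two squeezes in the full zone of a segment** -/
theorem fam_core2 (F₁ : PFam Λ b (fun _ => 1) lo hi R) (F₂ : PFam Λ b (fun _ => 2) lo hi R)
    {κ₁ κ₂ : ι → ℝ} (H₁ : ∀ z, Num b (R z) (κ₁ z)) (H₂ : ∀ z, Num b (R z) (κ₂ z)) {z : ι} {u : V}
    (hu : ∀ j, j ≠ 0 → |u j - lo z j| ≤ b * (R z - dd j (lo z) (hi z) u)) {g : V}
    (hg : g = fam (fun _ => 2) lo hi b R κ₂ (fam (fun _ => 1) lo hi b R κ₁ u)) :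
    g ∈ bx (lo z) (hi z) (R z) ∧ g 0 = u 0 ∧ |g 1 - lo z 1| ≤ κ₁ z * R z ∧
      |g 2 - lo z 2| ≤ κ₂ z * R z := by
  have hb := F₁.b0
  obtain ⟨h1, h2, h3⟩ := H851.fam_core F₁ H₁ (z := z) (u := u) (hu 1 (by decide))
  obtain ⟨u₁, hu₁⟩ : ∃ u₁, u₁ = fam (fun _ => 1) lo hi b R κ₁ u := ⟨_, rfl⟩
  rw [← hu₁] at hg h2 h3
  have h4 : u₁ ∈ bx (lo z) (hi z) (R z) := by rw [hu₁]; exact (F₁.fam_mem H₁ z).2 h1
  have h5 : u₁ 1 = lo z 1 + κ₁ z * (u 1 - lo z 1) := by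
    rw [hu₁, F₁.fam_eq h1, H239.pm_core (H₁ z) (hu 1 (by decide)), Function.update_self]
  have h6 : |u₁ 1 - lo z 1| ≤ |u 1 - lo z 1| := by
    rw [h5, add_sub_cancel_left, abs_mul, abs_of_nonneg (H₁ z).k0]
    have := (H₁ z).k1
    nlinarith [abs_nonneg (u 1 - lo z 1)]
  have h7 : dd 2 (lo z) (hi z) u₁ ≤ dd 2 (lo z) (hi z) u := by
    rw [H239.dd_le (H239.dd_nonneg u)]
    rintro ⟨i, s⟩ hi2
    have hi2' : i ≠ 2 := hi2
    have hup : fn (lo z) (hi z) (1, true) u ≤ dd 2 (lo z) (hi z) u :=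
      H239.fn_le_dd (by decide) u
    have hdn : fn (lo z) (hi z) (1, false) u ≤ dd 2 (lo z) (hi z) u :=
      H239.fn_le_dd (by decide) u
    have hflat : lo z 1 = hi z 1 := F₁.flat z
    simp only [fn, if_true, Bool.false_eq_true, if_false] at hup hdn
    rw [← hflat] at hup
    have habs : |u 1 - lo z 1| ≤ dd 2 (lo z) (hi z) u := by
      rw [abs_le]
      constructor <;> linarith
    by_cases hi1 : i = 1
    · subst hi1
      have h8 := abs_le.1 (h6.trans habs)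
      unfold fn
      split_ifs
      · show u₁ 1 - hi z 1 ≤ _
        rw [← hflat]; linarith [h8.2]
      · show lo z 1 - u₁ 1 ≤ _
        linarith [h8.1]
    · have h9 : u₁ i = u i := h2 i hi1
      refine le_trans (le_of_eq ?_) (H239.fn_le_dd (p := (i, s)) hi2 u)
      unfold fn
      simp only [h9]
  have h8 : |u₁ 2 - lo z 2| ≤ b * (R z - dd 2 (lo z) (hi z) u₁) := by
    rw [h2 2 (by decide)]
    refine (hu 2 (by decide)).trans ?_
    gcongr
  obtain ⟨k1, k2, k3⟩ := H851.fam_core F₂ H₂ (z := z) (u := u₁) h8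
  rw [← hg] at k2 k3
  refine ⟨by rw [hg]; exact (F₂.fam_mem H₂ z).2 h4, ?_, ?_, k3⟩
  · rw [k2 0 (by decide), h2 0 (by decide)]
  · rw [k2 1 (by decide)]; exact h3

/-- displacement of the two collapses in a box -/
theorem fam2_disp (F₁ : PFam Λ b (fun _ => 1) lo hi R) (F₂ : PFam Λ b (fun _ => 2) lo hi R)
    {z : ι} {u : V} (hu : u ∈ bx (lo z) (hi z) (R z)) :
    fam (fun _ => 2) lo hi b R (fun _ => 0) (fam (fun _ => 1) lo hi b R (fun _ => 0) u) ∈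
      bx (lo z) (hi z) (R z) ∧
    ‖fam (fun _ => 2) lo hi b R (fun _ => 0) (fam (fun _ => 1) lo hi b R (fun _ => 0) u) - u‖ ≤
      2 * R z := by
  have hR := F₁.R0 z
  obtain ⟨u₁, hu₁⟩ : ∃ u₁, u₁ = fam (fun _ => 1) lo hi b R (fun _ => (0:ℝ)) u := ⟨_, rfl⟩
  obtain ⟨u₂, hu₂⟩ : ∃ u₂, u₂ = fam (fun _ => 2) lo hi b R (fun _ => (0:ℝ)) u₁ := ⟨_, rfl⟩
  rw [← hu₁, ← hu₂]
  have h1 : u₁ ∈ bx (lo z) (hi z) (R z) := by rw [hu₁]; exact (F₁.fam_mem F₁.num0 z).2 hu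
  have h2 : u₂ ∈ bx (lo z) (hi z) (R z) := by rw [hu₂]; exact (F₂.fam_mem F₂.num0 z).2 h1
  have e1 : ∀ i, i ≠ 1 → u₁ i = u i := fun i hi' => by
    rw [hu₁, F₁.fam_eq hu]; exact H239.pm_ne hi' u
  have e2 : ∀ i, i ≠ 2 → u₂ i = u₁ i := fun i hi' => by
    rw [hu₂, F₂.fam_eq h1]; exact H239.pm_ne hi' u₁
  refine ⟨h2, ?_⟩
  rw [pi_norm_le_iff_of_nonneg (by linarith)]
  intro i
  rw [Pi.sub_apply, Real.norm_eq_abs]
  have a0 : |u i - lo z i| ≤ R z ∨ i = 0 := by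
    by_cases h0 : i = 0
    · exact Or.inr h0
    · left
      have : i = 1 ∨ i = 2 := eq_one_or_two h0
      rcases this with h | h
      · rw [h]; exact mem_bx_abs (l := 1) (F₁.flat z) hu
      · rw [h]; exact mem_bx_abs (l := 2) (F₂.flat z) hu
  have a1 : |u₂ i - lo z i| ≤ R z ∨ i = 0 := by
    by_cases h0 : i = 0
    · exact Or.inr h0
    · left
      have : i = 1 ∨ i = 2 := eq_one_or_two h0
      rcases this with h | h
      · rw [h]; exact mem_bx_abs (l := 1) (F₁.flat z) h2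
      · rw [h]; exact mem_bx_abs (l := 2) (F₂.flat z) h2
  rcases a0 with a0 | h0
  · rcases a1 with a1 | h0
    · have b0 := abs_le.1 a0
      have b1 := abs_le.1 a1
      rw [abs_le]
      constructor <;> linarith [b0.1, b0.2, b1.1, b1.2]
    · rw [h0, e2 0 (by decide), e1 0 (by decide), sub_self, abs_zero]; linarith
  · rw [h0, e2 0 (by decide), e1 0 (by decide), sub_self, abs_zero]; linarith

end fams

/-! ### The boundary -/

/-- the total target homeomorphism is close to the identity at the boundary -/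
theorem tp_bd {Λ : Set V} (hΛb : Bornology.IsBounded Λ) {ρ s : V → ℝ} {K : Type*} {V₀ X : Set V}
    {N : ℕ} {η κ₀ : ℝ} {T : V → V} {c : TI ρ (0 : V) → V} {Mi : TI ρ (0 : V) → M3}
    {bi : TI ρ (0 : V) → V} {g : ConHomeo Λ Λ} {A : K → M3} {b : K → V} {D : K → Set V}
    {r0 L : K → ℝ} {v : V} {Cg : ℝ} {κ : TI ρ (0 : V) → K} {e : TI ρ (0 : V) → ℝ}
    {n : TI ρ (0 : V) → ℕ} {wd : TI ρ (0 : V) → Fin 3 → ℤ} {Ξ : TI ρ (0 : V) → V → V}
    {Tt : ConHomeo Λ Λ} (S : TP N κ₀ Λ V₀ X T s η c Mi bi g A b D r0 L v Cg κ e n wd Ξ Tt)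
    (hs0 : ∀ x ∉ Λ, s x ≤ 0) {C : ℝ} (hC : 0 ≤ C)
    (hlip : ∀ y y', ‖toLp 2 (T y - T y')‖ ≤ C * ‖toLp 2 (y - y')‖) (hoff : ∀ y ∉ Λ, T y = y)
    {η' : ℝ} (hη : 0 < η') :
    ∃ Kc ⊆ Λ, IsCompact Kc ∧ ∀ y ∈ Λ, y ∉ Kc → ‖Tt.toFun y - y‖ ≤ η' := by
  obtain ⟨d, hd0, hd⟩ : ∃ d : ℝ, 0 < d ∧ (3 * C + 1) * d ≤ η' := by
    refine ⟨η' / (3 * C + 1), by positivity, le_of_eq ?_⟩
    field_simp
  have hcl : IsClosed {y : V | ∀ x ∉ Λ, d ≤ ‖y - x‖} := by
    have : {y : V | ∀ x ∉ Λ, d ≤ ‖y - x‖} = ⋂ x ∈ Λᶜ, {y | d ≤ ‖y - x‖} := by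
      ext y; simp
    rw [this]
    exact isClosed_biInter fun x _ => isClosed_le continuous_const (by fun_prop)
  have hsub : {y : V | ∀ x ∉ Λ, d ≤ ‖y - x‖} ⊆ Λ := by
    intro y hy
    by_contra hn
    have := hy y hn
    rw [sub_self, norm_zero] at this
    linarith
  refine ⟨_, hsub, Metric.isCompact_of_isClosed_isBounded hcl (hΛb.subset hsub), ?_⟩
  intro y hy hyK
  simp only [mem_ofPred_eq] at hyK
  push Not at hyK
  obtain ⟨x, hx, hxy⟩ := hyK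
  have h1 := lip_sup_of_eu hC hlip y x
  rw [hoff x hx] at h1
  have h2 : ‖T y - x‖ ≤ 2 * C * d := h1.trans (by gcongr)
  have h3 := S.lips (T y) x
  have h4 := hs0 x hx
  have h5 := S.close hy
  have e1 : Tt.toFun y - y = (Tt.toFun y - T y) + (T y - x) + (x - y) := by abel
  rw [e1]
  refine (norm_add₃_le).trans ?_
  rw [norm_sub_rev x y]
  have h6 : 0 ≤ C * d := by positivity
  linarith

/-- a thin neighbourhood of a compact set has small volume outside the set -/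
theorem exists_thin {K : Set V} (hK : IsCompact K) {ε : ℝ≥0∞} (hε : ε ≠ 0) {r : ℝ} (hr : 0 < r) :
    ∃ ρ : ℝ, 0 < ρ ∧ ρ ≤ r ∧ volume (cthickening ρ K \ K) ≤ ε := by
  have hfin : volume K ≠ ⊤ := hK.measure_lt_top.ne
  have h1 := tendsto_measure_cthickening_of_isCompact (μ := (volume : Measure V)) hK
  have h2 : ∀ᶠ ρ in 𝓝 (0:ℝ), volume (cthickening ρ K) < volume K + ε :=
    h1.eventually (gt_mem_nhds (ENNReal.lt_add_right hfin hε))
  have h3 : ∀ᶠ ρ in 𝓝[>] (0:ℝ), volume (cthickening ρ K) < volume K + ε :=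
    h2.filter_mono nhdsWithin_le_nhds
  have h4 : ∀ᶠ ρ in 𝓝[>] (0:ℝ), ρ < r :=
    (gt_mem_nhds hr).filter_mono nhdsWithin_le_nhds
  obtain ⟨ρ, ⟨h5, h6⟩, h7⟩ := ((h3.and h4).and self_mem_nhdsWithin).exists
  refine ⟨ρ, h7, h6.le, ?_⟩
  rw [measure_sdiff (self_subset_cthickening K) hK.measurableSet.nullMeasurableSet hfin]
  rw [tsub_le_iff_left]
  exact h5.le

end Vale.Agent.P073.H340
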